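import Vale.Agent.P275MC.Hol
import Vale.Agent.P281Z.Hg.Po1a

/-!
# P275, functions as forms of degree zero, graded commutativity, logarithmic derivatives
-/

set_option linter.unusedSectionVars false

open scoped Manifold ContDiff Topology Matrix
open Filter Set
open Vale.Agent.P272.K Vale.Agent.P299.IX Vale.Agent.P299.IX.Fock
  Vale.Agent.P281Z.Hg Vale.Agent.P281Z.Hg.G1H Vale.Agent.P281Z.Hg.G2H Vale.Agent.P281Z.Hg.Pb1H
  Vale.Agent.P275MC

noncomputable section

namespace Vale.Agent.P275KU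

section alg

variable {n : ℕ} {u : Fk n}

theorem par_ev : (par : FM n) *ᵥ ev ∅ = ev ∅ := by rw [par, dgl_ev]; simp

theorem wg_even (h : par *ᵥ u = u) (v : Fk n) : wg u * wg v = wg v * wg u := by
  induction v using F1aH.fk_ind with
  | h0 => rw [f1a.wg_ev, mul_one, one_mul]
  | he l v ih =>
    have h1 := f1a.eps_wg u l
    rw [h] at h1
    rw [f1a.wg_eps, ← mul_assoc, ← h1, mul_assoc, ih, mul_assoc]
  | ha v v' h h' => rw [f1a.wg_add, mul_add, add_mul, h, h']
  | hs c v h => rw [f1a.wg_smul, Matrix.mul_smul, Matrix.smul_mul, h]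

theorem wg_odd (h : par *ᵥ u = -u) (v : Fk n) : wg u * wg v = wg (par *ᵥ v) * wg u := by
  induction v using F1aH.fk_ind with
  | h0 => rw [par_ev, f1a.wg_ev, mul_one, one_mul]
  | he l v ih =>
    have h1 := f1a.eps_wg u l
    rw [h, F1aH.wg_neg, neg_mul, ← neg_eq_iff_eq_neg] at h1
    rw [f1a.wg_eps, ← mul_assoc, ← h1, neg_mul, mul_assoc, ih, Matrix.mulVec_mulVec, par_eps,
      Matrix.neg_mulVec, F1aH.wg_neg, ← Matrix.mulVec_mulVec, f1a.wg_eps, neg_mul, mul_assoc]
  | ha v v' h h' => rw [Matrix.mulVec_add, f1a.wg_add, f1a.wg_add, mul_add, add_mul, h, h']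
  | hs c v h =>
    rw [Matrix.mulVec_smul, f1a.wg_smul, f1a.wg_smul, Matrix.mul_smul, Matrix.smul_mul, h]

end alg

variable {d : ℕ} {M : Type} [TopologicalSpace M] [ChartedSpace (Cm d) M] {e : Chart d M} {x : M}
  {f g : M → ℂ} {u v θ : SF d M} {j k : ℤ}

theorem wd_neg (u w : SF d M) : wd (-u) w = -wd u w := by
  rw [← neg_one_smul ℂ u, wd_smul, neg_one_smul]

theorem wd_sub (u v w : SF d M) : wd (u - v) w = wd u w - wd v w := by
  rw [sub_eq_add_neg, wd_add, wd_neg, ← sub_eq_add_neg]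

theorem wd_sum {ι : Type*} (s : Finset ι) (u : ι → SF d M) (w : SF d M) :
    wd (∑ i ∈ s, u i) w = ∑ i ∈ s, wd (u i) w := by
  classical
  induction s using Finset.induction_on with
  | empty => exact wd_zero w
  | insert a s ha ih => rw [Finset.sum_insert ha, Finset.sum_insert ha, wd_add, ih]

theorem wd_even (h : pr d M u = u) (v w : SF d M) : wd u (wd v w) = wd v (wd u w) :=
  ext' fun e x he => by
    simp only [wd_vl _ _ he, Matrix.mulVec_mulVec]
    rw [wg_even (by rw [← pr_vl u he, h])]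

theorem wd_odd (h : pr d M u = -u) (v w : SF d M) : wd u (wd v w) = wd (pr d M v) (wd u w) :=
  ext' fun e x he => by
    simp only [wd_vl _ _ he, Matrix.mulVec_mulVec]
    rw [wg_odd (by rw [← pr_vl u he, h, vl_neg]), pr_vl _ he]

theorem pr_even (h : u ∈ Dg d M j) (hj : Even j) : pr d M u = u := by
  rw [pr_Dg h, Int.negOnePow_even _ hj, Units.val_one, Int.cast_one, one_smul]

theorem pr_odd (h : u ∈ Dg d M j) (hj : Odd j) : pr d M u = -u := by
  rw [pr_Dg h, Int.negOnePow_odd _ hj, Units.val_neg, Units.val_one, Int.cast_neg, Int.cast_one,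
    neg_one_smul]

/-- graded commutativity -/
theorem wd_swap (hu : u ∈ Dg d M j) (hv : v ∈ Dg d M k) (w : SF d M) :
    wd u (wd v w) = ((j * k).negOnePow : ℂ) • wd v (wd u w) := by
  rcases Int.even_or_odd j with h | h
  · rw [wd_even (pr_even hu h), Int.negOnePow_even _ (h.mul_right k), Units.val_one, Int.cast_one,
      one_smul]
  · rw [wd_odd (pr_odd hu h), pr_Dg hv, wd_smul]
    rcases Int.even_or_odd k with h' | h'
    · rw [Int.negOnePow_even _ h', Int.negOnePow_even _ (h'.mul_left j)]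
    · rw [Int.negOnePow_odd _ h', Int.negOnePow_odd _ (h.mul h')]

theorem wd_comm (hu : u ∈ Dg d M j) (hv : v ∈ Dg d M k) :
    wd u v = ((j * k).negOnePow : ℂ) • wd v u := by
  simpa only [wd_one] using wd_swap hu hv (one d M)

theorem wd_anti (hu : u ∈ Dg d M 1) (hv : v ∈ Dg d M 1) (w : SF d M) :
    wd u (wd v w) = -wd v (wd u w) := by
  rw [wd_odd (pr_odd hu odd_one), pr_odd hv odd_one, wd_neg]

theorem wd_self (hu : u ∈ Dg d M 1) (w : SF d M) : wd u (wd u w) = 0 := by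
  have h := wd_anti hu hu w
  rwa [eq_neg_iff_add_eq_zero, ← two_smul ℂ, smul_eq_zero_iff_right two_ne_zero] at h

theorem wd_self' (hu : u ∈ Dg d M 1) : wd u u = 0 := by
  simpa only [wd_one] using wd_self hu (one d M)

variable (d) in
/-- smooth complex functions -/
def SmC (f : M → ℂ) : Prop :=
  ∀ (e : Chart d M) (x : M), At e x → ContDiffAt ℝ ∞ (fun z => f (e.symm z)) (e x)

namespace SmC

theorem const (c : ℂ) : SmC d fun _ : M => c := fun _ _ _ => contDiffAt_const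

theorem add (hf : SmC d f) (hg : SmC d g) : SmC d fun x => f x + g x := fun e x h =>
  (hf e x h).add (hg e x h)

theorem sub (hf : SmC d f) (hg : SmC d g) : SmC d fun x => f x - g x := fun e x h =>
  (hf e x h).sub (hg e x h)

theorem neg (hf : SmC d f) : SmC d fun x => -f x := fun e x h => (hf e x h).neg

theorem mul (hf : SmC d f) (hg : SmC d g) : SmC d fun x => f x * g x := fun e x h =>
  (hf e x h).mul (hg e x h)

theorem sum {ι : Type*} (s : Finset ι) {f : ι → M → ℂ} (h : ∀ i, SmC d (f i)) :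
    SmC d fun x => ∑ i ∈ s, f i x := fun e x he => ContDiffAt.sum fun i _ => h i e x he

theorem comp (hf : SmC d f) {φ : ℂ → ℂ} (h : ∀ x, ContDiffAt ℝ ∞ φ (f x)) :
    SmC d fun x => φ (f x) := fun e x he => ContDiffAt.comp (g := φ) _ (h _) (hf e x he)

theorem inv (hf : SmC d f) (h : ∀ x, f x ≠ 0) : SmC d fun x => (f x)⁻¹ := fun e x he =>
  (hf e x he).inv (h _)

theorem star (hf : SmC d f) : SmC d fun x => star (f x) :=
  hf.comp (φ := fun z => Complex.conjCLE z) fun _ => Complex.conjCLE.contDiff.contDiffAt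

theorem zpow (hf : SmC d f) (h : ∀ x, f x ≠ 0) (m : ℤ) : SmC d fun x => f x ^ m :=
  hf.comp (φ := fun z => z ^ m) fun x =>
    ((analyticAt_id (𝕜 := ℂ)).zpow (h x)).contDiffAt.restrict_scalars ℝ

theorem of_real {ρ : M → ℝ} (h : SmoothFn (n := d) ρ) : SmC d fun x => (ρ x : ℂ) := fun e x he =>
  Complex.ofRealCLM.contDiff.contDiffAt.comp _ (h e x he)

theorem of_hol (h : ∀ x, P277Z.Hol d f x) : SmC d f := fun e x he =>
  ((h x e he).contDiffAt (n := ∞)).restrict_scalars ℝ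

theorem dif (hf : SmC d f) (he : At e x) : DifferentiableAt ℝ (fun z => f (e.symm z)) (e x) :=
  (hf e x he).differentiableAt (by simp)

theorem pull {d' : ℕ} {M' : Type} [TopologicalSpace M'] [ChartedSpace (Cm d') M'] {F : M' → M}
    (hf : SmC d f) (hF : Smo d' d F) : SmC d' fun x => f (F x) := fun e x hx => by
  have h1 := hf _ _ (ca (d := d) (F x))
  have h3 : chartAt (Cm d) (F x) (F x) = chartAt (Cm d) (F x) (F (e.symm (e x))) := by
    rw [e.left_inv hx.2]
  rw [h3] at h1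
  refine (h1.comp (e x) (hF.sm e _ x hx (ca (F x)))).congr_of_eventuallyEq ?_
  filter_upwards [near hF.cont hx (ca (d := d) (F x))] with z hz
  simp only [Function.comp_apply, (chartAt (Cm d) (F x)).left_inv hz.2.2.2]

theorem ex (hf : SmC d f) : ∃ u : SF d M, ∀ e x, At e x → vl u e (e x) = f x • ev ∅ :=
  (mkf (fun e z => f (e.symm z) • ev ∅) (fun e x he => (hf e x he).smul contDiffAt_const)
    fun e e' x h h' => by
      rw [e.left_inv h.2, e'.left_inv h'.2, Matrix.mulVec_smul, lam_ev_empty]).imp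
    fun _ hv e x h => by rw [hv e h.1 _ (e.map_source h.2), e.left_inv h.2]

end SmC

theorem at_self {e : Chart d (Cm d)} {z : Cm d} (h : At e z) : e = OpenPartialHomeomorph.refl _ :=
  chartedSpaceSelf_atlas.1 h.1

theorem at_refl (z : Cm d) : At (OpenPartialHomeomorph.refl (Cm d)) z := ca z

theorem smC_self {f : Cm d → ℂ} (h : ContDiff ℝ ∞ f) : SmC d f := fun _ _ he => by
  rw [at_self he]
  exact h.contDiffAt

/-- the components of a smooth map to the model space -/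
theorem smC_coord {b : ℕ} {F : M → Cm b} (hF : Smo d b F) (i : Fin b) : SmC d fun x => F x i :=
  (smC_self (contDiff_apply ℝ ℂ i)).pull hF

/-- a smooth function as a form of degree zero -/
def fn (hf : SmC d f) : SF d M := hf.ex.choose

theorem fn_vl (hf : SmC d f) (h : At e x) : vl (fn hf) e (e x) = f x • ev ∅ :=
  hf.ex.choose_spec e x h

theorem wd_fn_vl (hf : SmC d f) (u : SF d M) (h : At e x) :
    vl (wd (fn hf) u) e (e x) = f x • vl u e (e x) := by
  rw [wd_vl _ _ h, fn_vl hf h, f1a.wg_smul, f1a.wg_ev, Matrix.smul_mulVec, Matrix.one_mulVec]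

theorem fn_Dg (hf : SmC d f) : fn hf ∈ Dg d M 0 := mem_Dg.2 fun e x he => by
  rw [fn_vl hf he, ← one_vl e x he]
  exact (mem_Dg.1 one_Dg e x he).smul _

theorem fn_congr (hf : SmC d f) (hg : SmC d g) (h : ∀ x, f x = g x) : fn hf = fn hg :=
  ext' fun e x he => by rw [fn_vl hf he, fn_vl hg he, h]

theorem fn_const (c : ℂ) : fn (SmC.const c) = c • one d M :=
  ext' fun e x he => by rw [fn_vl _ he, vl_smul, one_vl e x he]

theorem fn_add (hf : SmC d f) (hg : SmC d g) : fn (hf.add hg) = fn hf + fn hg :=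
  ext' fun e x he => by rw [vl_add, fn_vl _ he, fn_vl _ he, fn_vl _ he, add_smul]

theorem fn_sub (hf : SmC d f) (hg : SmC d g) : fn (hf.sub hg) = fn hf - fn hg :=
  ext' fun e x he => by rw [vl_sub, fn_vl _ he, fn_vl _ he, fn_vl _ he, sub_smul]

theorem fn_neg (hf : SmC d f) : fn hf.neg = -fn hf :=
  ext' fun e x he => by rw [vl_neg, fn_vl _ he, fn_vl _ he, neg_smul]

theorem fn_mul (hf : SmC d f) (hg : SmC d g) : fn (hf.mul hg) = wd (fn hf) (fn hg) :=
  ext' fun e x he => by rw [wd_fn_vl _ _ he, fn_vl _ he, fn_vl _ he, mul_smul]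

theorem fn_sum {ι : Type*} (s : Finset ι) {f : ι → M → ℂ} (h : ∀ i, SmC d (f i)) :
    fn (SmC.sum s h) = ∑ i ∈ s, fn (h i) :=
  ext' fun e x he => by simp only [vl_sum, fn_vl _ he, Finset.sum_smul]

theorem fn_real {ρ : M → ℝ} (h : SmoothFn (n := d) ρ) (u : SF d M) :
    wd (fn (SmC.of_real h)) u = mu h u := ext' fun e x he => by rw [wd_fn_vl _ _ he, mu_vl _ _ he]

theorem fn_real' {ρ : M → ℝ} (h : SmoothFn (n := d) ρ) : fn (SmC.of_real h) = mu h (one d M) := by
  rw [← fn_real, wd_one]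

theorem pr_fn (hf : SmC d f) : pr d M (fn hf) = fn hf := pr_even (fn_Dg hf) Even.zero

theorem wd_fn (hf : SmC d f) (u v : SF d M) : wd u (wd (fn hf) v) = wd (fn hf) (wd u v) :=
  (wd_even (pr_fn hf) u v).symm

theorem wd_fn' (hf : SmC d f) (u : SF d M) : wd u (fn hf) = wd (fn hf) u := by
  simpa only [wd_one] using wd_fn hf u (one d M)

theorem fn_fn (hf : SmC d f) (hg : SmC d g) (u : SF d M) :
    wd (fn hf) (wd (fn hg) u) = wd (fn (hf.mul hg)) u := by rw [fn_mul, wd_wd]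

theorem fn_wd_Dg (hf : SmC d f) (h : u ∈ Dg d M k) : wd (fn hf) u ∈ Dg d M k := by
  simpa only [zero_add] using wd_Dg (fn_Dg hf) h

theorem fn_ZP (hf : SmC d f) (h : f x = 0) : fn hf ∈ ZP x := fun e he => by
  rw [fn_vl hf he, h, zero_smul]

theorem fn_Ac (hf : SmC d f) {K V : Set M} (hK : IsCompact K) (hV : K ⊆ V)
    (h : ∀ x ∉ K, f x = 0) : fn hf ∈ Ac d V := ⟨K, hK, hV, fun x hx => fn_ZP hf (h x hx)⟩

theorem fn_cancel (hf : SmC d f) (h0 : ∀ x, f x ≠ 0) (h : wd (fn hf) u = wd (fn hf) v) : u = v :=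
  ext' fun e x he => smul_right_injective _ (h0 x) (by
    simpa only [wd_fn_vl _ _ he] using congrArg (vl · e (e x)) h)

variable [IsManifold 𝓘(ℂ, Cm d) ω M]

theorem pb_fn {d' : ℕ} {M' : Type} [TopologicalSpace M'] [ChartedSpace (Cm d') M']
    [IsManifold 𝓘(ℂ, Cm d') ω M'] {F : M' → M} (hF : Smo d' d F) (hf : SmC d f) :
    pb hF (fn hf) = fn (hf.pull hF) := ext' fun e x he => by
  rw [pb_vl hF _ e _ x he (ca _), fn_vl _ (ca _), fn_vl _ he, Matrix.mulVec_smul, f1a.lr_ev]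

theorem dd_fn_vl (hf : SmC d f) (h : At e x) : vl (dd d M (fn hf)) e (e x) =
    epsV (fun c => dr c (fun z => f (e.symm z)) (e x)) *ᵥ ev ∅ := by
  rw [dd_vl _ h, ka.congr (v := fun z => f (e.symm z) • ev ∅) (ev_at h (.of_forall fun y hy => by
    simp only [fn_vl hf hy, e.left_inv hy.2])), ka.fun_mul (hf.dif h) (differentiableAt_const _),
    ka.const, smul_zero, add_zero]

theorem dd_fn_Dg (hf : SmC d f) : dd d M (fn hf) ∈ Dg d M 1 := dd_Dg (fn_Dg hf)

theorem dd_fn_wd (hf : SmC d f) (u : SF d M) :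
    dd d M (wd (fn hf) u) = wd (dd d M (fn hf)) u + wd (fn hf) (dd d M u) := by
  rw [dd_wd, pr_fn]

theorem dd_fn_mul (hf : SmC d f) (hg : SmC d g) : dd d M (fn (hf.mul hg)) =
    wd (fn hf) (dd d M (fn hg)) + wd (fn hg) (dd d M (fn hf)) := by
  rw [fn_mul, dd_fn_wd, wd_fn', add_comm]

theorem dd_fn_const (c : ℂ) : dd d M (fn (SmC.const c)) = 0 := by
  rw [fn_const, map_smul, dd_one, smul_zero]

/-- the chain rule -/
theorem dd_fn_of {h : M → ℂ} (hf : SmC d f) (hg : SmC d g) (hh : SmC d h)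
    (H : ∀ (e : Chart d M) x, At e x → ∀ v, fderiv ℝ (fun z => g (e.symm z)) (e x) v =
      h x * fderiv ℝ (fun z => f (e.symm z)) (e x) v) :
    dd d M (fn hg) = wd (fn hh) (dd d M (fn hf)) := ext' fun e x he => by
  rw [wd_fn_vl _ _ he, dd_fn_vl _ he, dd_fn_vl _ he, ← Matrix.smul_mulVec, ← epsV_smul]
  congr 2
  funext c
  obtain ⟨a, b, v, w, h1, -⟩ := Po1.rep c
  rw [Pi.smul_apply, h1, h1, H e x he, H e x he, smul_eq_mul]
  ring

/-- the chain rule for a holomorphic function of one variable -/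
theorem dd_fn_hol (hf : SmC d f) {φ φ' : ℂ → ℂ} (hg : SmC d fun x => φ (f x))
    (hh : SmC d fun x => φ' (f x)) (H : ∀ x, HasDerivAt φ (φ' (f x)) (f x)) :
    dd d M (fn hg) = wd (fn hh) (dd d M (fn hf)) :=
  dd_fn_of hf hg hh fun e x he v => by
    have h1 := H (e.symm (e x))
    rw [show fderiv ℝ (fun z => φ (f (e.symm z))) (e x) = _ from
      (h1.comp_hasFDerivAt_of_eq (𝕜 := ℝ) (e x) (hf.dif he).hasFDerivAt rfl).fderiv,
      e.left_inv he.2]
    rfl

/-- the chain rule for a real function of one variable -/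
theorem dd_fn_real {t : M → ℝ} (ht : SmoothFn (n := d) t) {φ φ' : ℝ → ℝ}
    (hg : SmC d fun x => (φ (t x) : ℂ)) (hh : SmC d fun x => (φ' (t x) : ℂ))
    (H : ∀ x, HasDerivAt φ (φ' (t x)) (t x)) :
    dd d M (fn hg) = wd (fn hh) (dd d M (fn (SmC.of_real ht))) :=
  dd_fn_of _ hg hh fun e x he v => by
    have h0 := ((ht e x he).differentiableAt (by simp)).hasFDerivAt
    have h1 := Complex.ofRealCLM.hasFDerivAt.comp _
      ((H (e.symm (e x))).comp_hasFDerivAt (e x) h0)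
    have h2 := Complex.ofRealCLM.hasFDerivAt.comp _ h0
    rw [show fderiv ℝ (fun z => (φ (t (e.symm z)) : ℂ)) (e x) = _ from h1.fderiv,
      show fderiv ℝ (fun z => (t (e.symm z) : ℂ)) (e x) = _ from h2.fderiv, e.left_inv he.2]
    simp

/-- `θ = df / f` -/
def IsDl (hf : SmC d f) (θ : SF d M) : Prop := wd (fn hf) θ = dd d M (fn hf)

/-- the logarithmic derivative -/
def dlog (hf : SmC d f) (h0 : ∀ x, f x ≠ 0) : SF d M := wd (fn (hf.inv h0)) (dd d M (fn hf))

theorem isDl_dlog (hf : SmC d f) (h0 : ∀ x, f x ≠ 0) : IsDl hf (dlog hf h0) := by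
  rw [IsDl, dlog, fn_fn, fn_congr _ (SmC.const 1) fun x => mul_inv_cancel₀ (h0 x), fn_const,
    one_smul, one_wd]

theorem IsDl.eq {hf : SmC d f} (h : IsDl hf θ) (h0 : ∀ x, f x ≠ 0) : θ = dlog hf h0 :=
  fn_cancel hf h0 (h.trans (isDl_dlog hf h0).symm)

theorem dlog_Dg (hf : SmC d f) (h0 : ∀ x, f x ≠ 0) : dlog hf h0 ∈ Dg d M 1 :=
  fn_wd_Dg _ (dd_fn_Dg hf)

theorem dd_dlog (hf : SmC d f) (h0 : ∀ x, f x ≠ 0) : dd d M (dlog hf h0) = 0 := by
  have h := congrArg (dd d M) (isDl_dlog hf h0)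
  rw [dd_dd, dd_fn_wd, ← isDl_dlog hf h0, wd_wd, wd_self' (dlog_Dg hf h0), map_zero,
    zero_add] at h
  exact fn_cancel hf h0 (h.trans (map_zero _).symm)

theorem IsDl.congr {hf : SmC d f} (h : IsDl hf θ) (hg : SmC d g) (e : ∀ x, f x = g x) :
    IsDl hg θ := by rwa [IsDl, ← fn_congr hf hg e]

theorem IsDl.mul {hf : SmC d f} {hg : SmC d g} {η : SF d M} (h : IsDl hf θ) (h' : IsDl hg η) :
    IsDl (hf.mul hg) (θ + η) := by
  rw [IsDl, dd_fn_mul hf hg, ← h, ← h', map_add, fn_fn, fn_fn, add_comm,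
    fn_congr (hg.mul hf) (hf.mul hg) fun _ => mul_comm _ _]

theorem isDl_const (c : ℂ) : IsDl (SmC.const c) (0 : SF d M) := by
  rw [IsDl, map_zero, dd_fn_const]

theorem IsDl.zpow {hf : SmC d f} (h : IsDl hf θ) (h0 : ∀ x, f x ≠ 0) (m : ℤ) :
    IsDl (hf.zpow h0 m) ((m : ℂ) • θ) := by
  rw [IsDl, dd_fn_hol hf (φ := fun z => z ^ m) (φ' := fun z => m * z ^ (m - 1)) _
    ((SmC.const _).mul (hf.zpow h0 _)) fun x => hasDerivAt_zpow m _ (.inl (h0 x)), ← h, fn_fn,
    map_smul, ← wd_smul, ← one_wd (fn _), ← wd_smul, ← fn_const, ← fn_mul]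
  exact congrArg (wd · θ) (fn_congr _ _ fun x => by rw [zpow_sub_one₀ (h0 x)]; field_simp [h0 x])

theorem IsDl.prod {ι : Type*} (s : Finset ι) {f : ι → M → ℂ} {hf : ∀ i, SmC d (f i)}
    {θ : ι → SF d M} (h : ∀ i, IsDl (hf i) (θ i)) :
    ∃ hs : SmC d fun x => ∏ i ∈ s, f i x, IsDl hs (∑ i ∈ s, θ i) := by
  classical
  induction s using Finset.induction_on with
  | empty => exact ⟨SmC.const 1, isDl_const 1⟩
  | insert a s ha ih =>
    obtain ⟨hs, ih⟩ := ih
    simp only [Finset.prod_insert ha, Finset.sum_insert ha]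
    exact ⟨(hf a).mul hs, (h a).mul ih⟩

theorem IsDl.pb {d' : ℕ} {M' : Type} [TopologicalSpace M'] [ChartedSpace (Cm d') M']
    [IsManifold 𝓘(ℂ, Cm d') ω M'] {F : M' → M} {hf : SmC d f} (h : IsDl hf θ) (hF : Smo d' d F) :
    IsDl (hf.pull hF) (pb hF θ) := by
  rw [IsDl, ← pb_fn hF hf, ← pb_wd, ← pb_dd, h]

end Vale.Agent.P275KU
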