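import Vale.Agent.P275KU.Ten

/-!
# P275, the theorem of Kuenneth for the tensor product of the complexes
-/

set_option linter.unusedSectionVars false

open scoped Manifold ContDiff Topology Matrix TensorProduct
open Filter Set Function Module
open Vale.Agent.P272.K Vale.Agent.P272.K.Prod Vale.Agent.P281Z.Hg
  Vale.Agent.P275MC Vale.Agent.P275PC Vale.Agent.P275AR Vale.Agent.P275FM

noncomputable section

namespace Vale.Agent.P275KU

section alg

variable {T T' T'' J : Type*} [AddCommGroup T] [Module ℂ T] [AddCommGroup T'] [Module ℂ T']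
  [AddCommGroup T''] [Module ℂ T'']

theorem ex_fac (f : T →ₗ[ℂ] T') (g : T →ₗ[ℂ] T'') (h : ∀ x, f x = 0 → g x = 0) :
    ∃ L : T' →ₗ[ℂ] T'', ∀ x, L (f x) = g x := by
  obtain ⟨L, hL⟩ := ((LinearMap.ker f).liftQ g h ∘ₗ f.quotKerEquivRange.symm.toLinearMap).exists_extend
  exact ⟨L, fun x => (LinearMap.congr_fun hL ⟨f x, x, rfl⟩).trans
    (congrArg ((LinearMap.ker f).liftQ g h) (f.quotKerEquivRange_symm_apply_image x _))⟩

/-- a complex of vector spaces is homotopy equivalent to its cohomology -/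
theorem ex_htp {D : Module.End ℂ T} (hD : ∀ x, D (D x) = 0) {ι : T' →ₗ[ℂ] T}
    (h0 : ∀ c, D (ι c) = 0) (h1 : ∀ c y, ι c = D y → c = 0)
    (h2 : ∀ z, D z = 0 → ∃ c y, z - ι c = D y) : ∃ (h : Module.End ℂ T) (π : T →ₗ[ℂ] T'),
      (∀ x, x = ι (π x) + D (h x) + h (D x)) ∧ (∀ c, π (ι c) = c) ∧ ∀ x, π (D x) = 0 := by
  obtain ⟨r, hr⟩ := (LinearMap.ker D).subtype.exists_leftInverse_of_injective (Submodule.ker_subtype _)
  have r1 : ∀ z, D z = 0 → (r z : T) = z := fun z hz =>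
    congrArg Subtype.val (LinearMap.congr_fun hr ⟨z, hz⟩)
  obtain ⟨L, hL⟩ := ex_fac (D.coprod ι)
    ((LinearMap.id - (LinearMap.ker D).subtype ∘ₗ r).prodMap LinearMap.id) fun x hx => by
      have k : x.2 = 0 := h1 _ (-x.1) (by rw [map_neg]; exact eq_neg_of_add_eq_zero_right hx)
      refine Prod.ext (sub_eq_zero.2 (r1 _ ?_).symm) k
      rwa [LinearMap.coprod_apply, k, map_zero, add_zero] at hx
  have l1 : ∀ y c, L (D y + ι c) = (y - r y, c) := fun y c => hL (y, c)
  have l2 : ∀ y, L (r (D y)) = (y - r y, 0) := fun y => by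
    rw [r1 _ (hD y), ← l1, map_zero, add_zero]
  refine ⟨.fst ℂ _ _ ∘ₗ L ∘ₗ (LinearMap.ker D).subtype ∘ₗ r,
    .snd ℂ _ _ ∘ₗ L ∘ₗ (LinearMap.ker D).subtype ∘ₗ r, fun x => ?_, fun c => ?_,
    fun x => congrArg Prod.snd (l2 x)⟩
  · obtain ⟨c, y, e⟩ := h2 _ (r x).2
    change x = ι (L (r x)).2 + D (L (r x)).1 + (L (r (D x))).1
    rw [l2, congrArg L (eq_add_of_sub_eq e), l1, map_sub D y, show D (r y) = 0 from (r y).2]
    dsimp only
    rw [eq_add_of_sub_eq e]
    abel
  · change (L (r (ι c))).2 = c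
    rw [r1 _ (h0 c), ← zero_add (ι c), ← map_zero D, l1]

/-- homotopy equivalences -/
theorem Qi.of_htp {d : Module.End ℂ T} {G : ℤ → Submodule ℂ T} {d' : Module.End ℂ T'}
    {G' : ℤ → Submodule ℂ T'} {f : T →ₗ[ℂ] T'} (g : T' →ₗ[ℂ] T) (H : Module.End ℂ T')
    (h1 : ∀ k, ∀ a ∈ G k, f a ∈ G' k) (h2 : ∀ a, d' (f a) = f (d a)) (h3 : ∀ a, g (f a) = a)
    (h4 : ∀ k, ∀ b ∈ G' k, g b ∈ G k ∧ H b ∈ G' (k - 1) ∧ g (d' b) = d (g b) ∧
      b = f (g b) + d' (H b) + H (d' b)) : Qi d G d' G' f where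
  map := h1
  comm _ a _ := h2 a
  inj k a _ _ y hy e := ⟨g y, (h4 _ y hy).1, by rw [← (h4 _ y hy).2.2.1, ← e, h3]⟩
  surj k b hb h0 := by
    obtain ⟨a1, a2, a3, a4⟩ := h4 k b hb
    rw [h0, map_zero] at a3 a4
    exact ⟨g b, a1, a3.symm, H b, a2, a4.trans (add_zero _)⟩

end alg

attribute [local instance] prodCS isManifold_prod

variable {n m : ℕ} {X Y : Type} [TopologicalSpace X] [TopologicalSpace Y] [ChartedSpace (Cm n) X]
  [ChartedSpace (Cm m) Y] [IsManifold 𝓘(ℂ, Cm n) ω X] [IsManifold 𝓘(ℂ, Cm m) ω Y] [T2Space X]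
  [T2Space Y] {U : Set X} {V : Set Y}

variable (m V) in
/-- the components of the forms with compact support -/
def pjA (k : ℤ) : Module.End ℂ (Ac m V) := (pj m Y k).restrict fun _ => pj_Ac k

theorem ex_gr {W : Type*} [AddCommGroup W] [Module ℂ W] (f : ℤ → Ac m V →ₗ[ℂ] W) :
    ∃ g : Ac m V →ₗ[ℂ] W, ∀ k (x : Ac m V), x.1 ∈ Dg m Y k → g x = f k x := by
  refine ⟨∑ l ∈ Finset.range (m + m + 1), f l ∘ₗ pjA m V l, fun k x hx => ?_⟩
  have h : x = ∑ l ∈ Finset.range (m + m + 1), pjA m V l x :=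
    Subtype.ext (by rw [Submodule.coe_sum]; exact (pj_sum x.1).symm)
  conv_rhs => rw [h, map_sum]
  rw [LinearMap.sum_apply]
  refine Finset.sum_congr rfl fun l _ => ?_
  by_cases e : (l : ℤ) = k
  · rw [e, LinearMap.comp_apply]
  · rw [LinearMap.comp_apply, show pjA m V l x = 0 from Subtype.ext (pj_ne hx e), map_zero, map_zero]

variable (n U V) in
/-- the grading of the tensor product -/
def Gt (k : ℤ) : Submodule ℂ (SF n X ⊗[ℂ] Ac m V) := Submodule.span ℂ
  {z | ∃ (j : ℤ) (a : SF n X) (x : Ac m V), a ∈ Am n j U ∧ x.1 ∈ Dg m Y (k - j) ∧ z = a ⊗ₜ x}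

variable (n X V) in
/-- the differential of the tensor product -/
def Dt : Module.End ℂ (SF n X ⊗[ℂ] Ac m V) :=
  (dd n X).rTensor _ + TensorProduct.map (pr n X) (dc m V)

variable (n X V) in
/-- the cross product -/
def crT : SF n X ⊗[ℂ] Ac m V →ₗ[ℂ] SF (n + m) (X × Y) :=
  TensorProduct.lift ((cr n m X Y).compl₂ (Ac m V).subtype)

variable {j k : ℤ} {a : SF n X} {x : Ac m V}

theorem Dt_tmul (a : SF n X) (x : Ac m V) :
    Dt n X V (a ⊗ₜ x) = dd n X a ⊗ₜ x + pr n X a ⊗ₜ dc m V x := rfl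

theorem crT_tmul (a : SF n X) (x : Ac m V) : crT n X V (a ⊗ₜ x) = cr n m X Y a x := rfl

theorem tmul_Gt (ha : a ∈ Am n j U) (hx : x.1 ∈ Dg m Y (k - j)) : a ⊗ₜ x ∈ Gt n U V k :=
  Submodule.subset_span ⟨j, a, x, ha, hx, rfl⟩

theorem Gt_ind {p : ∀ z ∈ Gt n U V k, Prop} (h0 : p 0 (zero_mem _))
    (h1 : ∀ u v hu hv, p u hu → p v hv → p (u + v) (add_mem hu hv))
    (h2 : ∀ j a (ha : a ∈ Am n j U) (x : Ac m V) (hx : x.1 ∈ Dg m Y (k - j)),
      p (a ⊗ₜ x) (tmul_Gt ha hx)) {z : SF n X ⊗[ℂ] Ac m V} (hz : z ∈ Gt n U V k) : p z hz := by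
  refine Submodule.closure_induction (p := p) h0 h1 ?_ hz
  rintro c _ ⟨j, a, x, ha, hx, rfl⟩
  exact h2 j _ (Submodule.smul_mem _ c ha) x hx

theorem pr_Am (ha : a ∈ Am n j U) : pr n X a ∈ Am n j U :=
  pr_Dg ha.2 ▸ Submodule.smul_mem _ _ ha

theorem crT_Dt (z : SF n X ⊗[ℂ] Ac m V) : dd _ _ (crT n X V z) = crT n X V (Dt n X V z) := by
  induction z using TensorProduct.induction_on with
  | zero => simp only [map_zero]
  | tmul a x => rw [Dt_tmul, map_add]; exact cr_dd a x.1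
  | add u v h1 h2 => simp only [map_add, h1, h2]

theorem crT_Gt {z : SF n X ⊗[ℂ] Ac m V} (hz : z ∈ Gt n U V k) :
    crT n X V z ∈ Am (n + m) k (U ×ˢ V) := by
  refine Submodule.span_le (p := (Am (n + m) k (U ×ˢ V)).comap (crT n X V)).2 ?_ hz
  rintro _ ⟨j, a, x, ha, hx, rfl⟩
  have := cr_Am (V := V) ha ⟨x.2, hx⟩
  rwa [add_sub_cancel] at this

/-- **Kuenneth** on the level of the complexes -/
theorem qi_ten (hU : IsOpen U) (hV : IsOpen V) : Qi (Dt n X V) (Gt n U V) (dd (n + m) (X × Y))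
    (Am (n + m) · (U ×ˢ V)) (crT n X V) := by
  classical
  obtain ⟨J, deg, β, hb⟩ := exists_HB m V
  let γ : J → Ac m V := fun j => ⟨β j, (hb.mem j).1⟩
  have g0 : ∀ j, dc m V (γ j) = 0 := fun j => Subtype.ext (hb.cl j)
  have g1 : ∀ c, (Finsupp.linearCombination ℂ γ c : SF m Y) = Finsupp.linearCombination ℂ β c :=
    Finsupp.apply_linearCombination ℂ (Ac m V).subtype γ
  obtain ⟨h, π, a1, a2, a3⟩ := ex_htp (ι := Finsupp.linearCombination ℂ γ) dc_dc (lc_cl g0)
    (fun c y e => linearIndependent_iff.1 hb.li c ((hc_lc (fun j => (hb.mem j).1) hb.cl c).trans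
      (hc_zero.2 ⟨y, y.2, (g1 c).symm.trans (congrArg Subtype.val e)⟩))) fun z hz => by
        obtain ⟨c, y, hy, e⟩ := hb.ungr z.2 (congrArg Subtype.val hz)
        exact ⟨c, ⟨y, hy⟩, Subtype.ext (g1 c ▸ e :)⟩
  obtain ⟨h', b1⟩ := ex_gr fun k => pjA m V (k - 1) ∘ₗ h
  let fl : ℤ → Module.End ℂ (J →₀ ℂ) := fun k =>
    { toFun := Finsupp.filter fun j => deg j = k, map_add' := fun _ _ => Finsupp.filter_add
      map_smul' := fun _ _ => Finsupp.filter_smul }
  obtain ⟨π', b2⟩ := ex_gr fun k => fl k ∘ₗ π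
  let E := TensorProduct.finsuppScalarRight ℂ ℂ (SF n X) J
  let e : (J →₀ SF n X) →ₗ[ℂ] SF n X ⊗[ℂ] Ac m V :=
    Finsupp.lsum ℂ fun j => (TensorProduct.mk ℂ _ _).flip (γ j)
  have e1 : ∀ j a, e (.single j a) = a ⊗ₜ γ j := fun j a => Finsupp.lsum_single _ _ _ _
  have e2 : ∀ a c, e (E (a ⊗ₜ c)) = a ⊗ₜ Finsupp.linearCombination ℂ γ c := fun a c => by
    induction c using Finsupp.induction_linear with
    | zero => simp only [TensorProduct.tmul_zero, map_zero]
    | add u v h1 h2 => simp only [TensorProduct.tmul_add, map_add, h1, h2]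
    | single j c =>
      rw [TensorProduct.finsuppScalarRight_apply_tmul, Finsupp.sum_single_index (by simp), e1,
        Finsupp.linearCombination_single, TensorProduct.smul_tmul]
  have q : Qi (Finsupp.mapRange.linearMap (dd n X)) (Fs deg (Am n · U)) (Dt n X V) (Gt n U V) e := by
    refine Qi.of_htp (E.toLinearMap ∘ₗ π'.lTensor _) (TensorProduct.map (pr n X) h')
      (fun k c hc => Submodule.sum_mem _ fun j _ => tmul_Gt (mem_Fs.1 hc j)
        (by rw [sub_sub_cancel]; exact (hb.mem j).2)) (fun c => ?_) (fun c => ?_) fun k z hz => ?_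
    · induction c using Finsupp.induction_linear with
      | zero => simp only [map_zero]
      | add u v h1 h2 => simp only [map_add, h1, h2]
      | single j a =>
        rw [e1, Dt_tmul, g0, TensorProduct.tmul_zero, add_zero, ← e1,
          Finsupp.mapRange.linearMap_apply, Finsupp.mapRange_single]
    · induction c using Finsupp.induction_linear with
      | zero => simp only [map_zero]
      | add u v h1 h2 => simp only [map_add, h1, h2]
      | single j a =>
        have l := a2 (.single j 1)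
        rw [Finsupp.linearCombination_single, one_smul] at l
        rw [e1]
        change E (a ⊗ₜ π' (γ j)) = _
        rw [b2 _ _ (hb.mem j).2, LinearMap.comp_apply, l]
        change E (a ⊗ₜ Finsupp.filter _ _) = _
        rw [Finsupp.filter_single_of_pos (fun i => deg i = deg j) rfl, TensorProduct.finsuppScalarRight_apply_tmul,
          Finsupp.sum_single_index (by simp), one_smul]
    induction hz using Gt_ind with
    | h0 => simp only [map_zero, zero_mem, add_zero, and_self]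
    | h1 u v _ _ k1 l1 =>
      obtain ⟨k1, k2, k3, k4⟩ := k1
      obtain ⟨l1, l2, l3, l4⟩ := l1
      simp only [map_add]
      refine ⟨add_mem k1 l1, add_mem k2 l2, by rw [k3, l3], ?_⟩
      conv_lhs => rw [k4, l4]
      abel
    | h2 j a ha x hx =>
    have c1 : (dc m V x).1 ∈ Dg m Y (k - j + 1) := dd_Dg hx
    have c2 : x = Finsupp.linearCombination ℂ γ (π' x) + dc m V (h' x) + h' (dc m V x) := by
      rw [b1 _ _ hx, b1 _ _ c1, b2 _ _ hx, add_sub_cancel_right]
      refine Subtype.ext ((pj_eq hx).symm.trans ?_)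
      conv_lhs => rw [a1 x, Submodule.coe_add, Submodule.coe_add, map_add, map_add, g1,
        pj_lc fun j => (hb.mem j).2, dc_val, pj_dd', ← g1]
      rfl
    simp only [Dt_tmul, map_add, LinearMap.comp_apply, LinearMap.lTensor_tmul,
      TensorProduct.map_tmul, LinearEquiv.coe_coe, e2, pr_pr', dd_pr']
    refine ⟨mem_Fs.2 fun i => ?_, tmul_Gt (pr_Am ha) ?_, Finsupp.ext fun i => ?_, ?_⟩
    · rw [TensorProduct.finsuppScalarRight_apply_tmul_apply, b2 _ _ hx]
      by_cases l : deg i = k - j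
      · exact Submodule.smul_mem _ _ (by rwa [l, sub_sub_cancel])
      · rw [show (fl (k - j) ∘ₗ π) x i = 0 from Finsupp.filter_apply_neg _ _ l, zero_smul]
        exact zero_mem _
    · rw [b1 _ _ hx, sub_right_comm]
      exact pj_mem _ _
    · rw [b2 _ _ c1, LinearMap.comp_apply, a3, map_zero, TensorProduct.tmul_zero, map_zero, add_zero,
        Finsupp.mapRange.linearMap_apply, Finsupp.mapRange_apply,
        TensorProduct.finsuppScalarRight_apply_tmul_apply,
        TensorProduct.finsuppScalarRight_apply_tmul_apply, map_smul]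
    · conv_lhs => rw [c2]
      rw [TensorProduct.tmul_add, TensorProduct.tmul_add, TensorProduct.neg_tmul]
      abel
  refine Qi.of_comp (?_ : Qi _ _ _ _ (crT n X V ∘ₗ e)) q (fun k z hz => crT_Gt hz)
    fun _ z _ => crT_Dt z
  rw [show crT n X V ∘ₗ e = crs n X β from Finsupp.lhom_ext fun j a => by
    rw [LinearMap.comp_apply, e1, crs_single, crT_tmul]]
  exact qi_crs hb hV hU

end Vale.Agent.P275KU
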