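import Vale.Agent.P275KU.Tor
import Vale.Agent.P275AR.Pair
import Vale.Agent.P275FM.St

/-!
# P275, the theorem of Kuenneth as an isomorphism with the tensor product
-/

set_option linter.unusedSectionVars false

open scoped Manifold ContDiff Topology Matrix TensorProduct
open Filter Set Function Module
open Vale.Agent.P272.K Vale.Agent.P272.K.Prod Vale.Agent.P299.IX Vale.Agent.P299.IX.Fock
  Vale.Agent.P281Z.Hg Vale.Agent.P281Z.Hg.G1H Vale.Agent.P281Z.Hg.G2H
  Vale.Agent.P275MC Vale.Agent.P275PC Vale.Agent.P275AR Vale.Agent.P275FM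

noncomputable section

namespace Vale.Agent.P275KU

section one

variable {d : ℕ} {M : Type} [TopologicalSpace M] [ChartedSpace (Cm d) M]
  [IsManifold 𝓘(ℂ, Cm d) ω M] [T2Space M] {U : Set M} {J : Type*} {deg : J → ℤ} {β : J → SF d M}

theorem lc_Ac (h : ∀ j, β j ∈ Ac d U) (c : J →₀ ℂ) : Finsupp.linearCombination ℂ β c ∈ Ac d U :=
  Submodule.sum_mem _ fun j _ => Submodule.smul_mem _ _ (h j)

theorem hc_lc (h : ∀ j, β j ∈ Ac d U) (h0 : ∀ j, dd d M (β j) = 0) (c : J →₀ ℂ) :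
    Finsupp.linearCombination ℂ (fun j => hc (β j) (h j) (h0 j)) c =
      hc (Finsupp.linearCombination ℂ β c) (lc_Ac h c) (lc_cl h0 c) := by
  refine (Finsupp.apply_linearCombination ℂ (Coh.mkL (dc d U))
    (fun j => ⟨⟨β j, h j⟩, Subtype.ext (h0 j)⟩) c).symm.trans
    (congrArg (Coh.mkL (dc d U)) (Subtype.ext (Subtype.ext ?_)))
  exact Finsupp.apply_linearCombination ℂ ((Ac d U).subtype ∘ₗ (LinearMap.ker (dc d U)).subtype) _ c

theorem pj_lc (h : ∀ j, β j ∈ Dg d M (deg j)) (k : ℤ) (c : J →₀ ℂ) :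
    pj d M k (Finsupp.linearCombination ℂ β c) =
      Finsupp.linearCombination ℂ β (c.filter fun j => deg j = k) := by
  induction c using Finsupp.induction_linear with
  | zero => simp only [Finsupp.filter_zero, map_zero]
  | add a b ha hb => simp only [Finsupp.filter_add, map_add, ha, hb]
  | single j a =>
    rw [Finsupp.linearCombination_single, map_smul]
    by_cases h1 : deg j = k
    · rw [Finsupp.filter_single_of_pos (fun j => deg j = k) h1, Finsupp.linearCombination_single,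
        ← h1, pj_eq (h j)]
    · rw [Finsupp.filter_single_of_neg (fun j => deg j = k) h1, map_zero, pj_ne (h j) (Ne.symm h1),
        smul_zero]

theorem filter_FP (k : ℤ) (c : J →₀ ℂ) : (c.filter fun j => deg j = k) ∈ Fs deg Pt k :=
  mem_FP.2 fun _ hj => Finsupp.filter_apply_neg _ _ hj

theorem pj_dd' (k : ℤ) (u : SF d M) : pj d M k (dd d M u) = dd d M (pj d M (k - 1) u) := by
  rw [← pj_dd, sub_add_cancel]

/-- the classes of the basis -/
def HB.cls (h : HB d U deg β) (j : J) : Hc d U := hc (β j) (h.mem j).1 (h.cl j)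

theorem HB.li (h : HB d U deg β) : LinearIndependent ℂ h.cls := by
  refine linearIndependent_iff.2 fun c hc0 => Finsupp.ext fun j => ?_
  obtain ⟨y, hy, e⟩ := hc_zero.1 ((hc_lc (fun j => (h.mem j).1) h.cl c).symm.trans hc0)
  have h1 := h.ind (filter_FP (deg j) c) (pj_Am _ hy)
    (by rw [← pj_lc fun j => (h.mem j).2, e, pj_dd'])
  exact (Finsupp.filter_apply_pos (fun i => deg i = deg j) c rfl).symm.trans
    (DFunLike.congr_fun h1 j)

theorem HB.ungr (h : HB d U deg β) {u : SF d M} (hu : u ∈ Ac d U) (h0 : dd d M u = 0) :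
    ∃ c, ∃ y ∈ Ac d U, u - Finsupp.linearCombination ℂ β c = dd d M y := by
  obtain ⟨_, ⟨c, rfl⟩, _, ⟨y, hy, rfl⟩, e⟩ := Submodule.mem_sup.1 (h.span'
    (P := LinearMap.range (Finsupp.linearCombination ℂ β) ⊔ (Ac d U).map (dd d M))
    (fun j => Submodule.mem_sup_left ⟨Finsupp.single j 1, by simp⟩)
    (fun w hw => Submodule.mem_sup_right ⟨w, hw, rfl⟩) hu h0)
  exact ⟨c, y, hy, sub_eq_iff_eq_add'.2 e.symm⟩

theorem HB.top (h : HB d U deg β) : ⊤ ≤ Submodule.span ℂ (range h.cls) := fun x _ => by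
  obtain ⟨u, hu, h0, rfl⟩ := hc_ind x
  obtain ⟨c, e⟩ := h.ungr hu h0
  rw [← Finsupp.range_linearCombination]
  exact ⟨c, (hc_lc (fun j => (h.mem j).1) h.cl c).trans (hc_eq.2 e).symm⟩

/-- the basis of the cohomology -/
def HB.basis (h : HB d U deg β) : Basis J ℂ (Hc d U) := Basis.mk h.li h.top

theorem HB.basis_apply (h : HB d U deg β) (j : J) :
    h.basis j = hc (β j) (h.mem j).1 (h.cl j) := Basis.mk_apply _ _ _

theorem HB.of_cls (h1 : ∀ j, β j ∈ Am d (deg j) U) (h2 : ∀ j, dd d M (β j) = 0)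
    (h3 : LinearIndependent ℂ fun j => hc (β j) (h1 j).1 (h2 j))
    (h4 : ⊤ ≤ Submodule.span ℂ (range fun j => hc (β j) (h1 j).1 (h2 j))) : HB d U deg β := by
  refine Hb.of h1 h2 (fun k c _ y hy e => linearIndependent_iff.1 h3 c
    ((hc_lc _ h2 c).trans (hc_zero.2 ⟨y, hy.1, e⟩))) fun k b hb b0 => ?_
  have h5 := h4 (Submodule.mem_top (x := hc b hb.1 b0))
  rw [← Finsupp.range_linearCombination] at h5
  obtain ⟨c, h5⟩ := h5
  obtain ⟨y, hy, e⟩ := hc_eq.1 (h5.symm.trans (hc_lc _ h2 c))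
  refine ⟨_, filter_FP k c, _, pj_Am _ hy, ?_⟩
  rw [← pj_lc fun j => (h1 j).2, ← pj_dd', ← e, map_sub, pj_eq hb.2, add_sub_cancel]

variable (d) in
/-- homogeneous bases exist -/
theorem exists_HB (U : Set M) : ∃ (J : Type) (deg : J → ℤ) (β : J → SF d M), HB d U deg β := by
  obtain ⟨b, h1, h2, h3⟩ := exists_linearIndependent ℂ
    {x : Hc d U | ∃ k u, ∃ (h : u ∈ Am d k U) (h0 : dd d M u = 0), hc u h.1 h0 = x}
  choose deg β k1 k2 k3 using fun j : b => h1 j.2
  refine ⟨b, deg, β, HB.of_cls k1 k2 (by simpa only [k3] using h3) fun x _ => ?_⟩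
  simp only [k3, Subtype.range_coe_subtype, ofPred_mem_eq, h2]
  obtain ⟨u, hu, h0, rfl⟩ := hc_ind x
  have h4 : ∀ k : ℤ, dd d M (pj d M k u) = 0 := fun k => by rw [← pj_dd, h0, map_zero]
  have h5 := hc_lc (fun k : ℕ => pj_Ac k hu) (fun k => h4 k)
    (∑ k ∈ Finset.range (d + d + 1), Finsupp.single k 1)
  simp only [map_sum, Finsupp.linearCombination_single, one_smul, pj_sum] at h5
  rw [← h5]
  exact Submodule.sum_mem _ fun k _ => Submodule.subset_span ⟨_, _, pj_Am k hu, h4 k, rfl⟩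

variable {d' : ℕ} {M' : Type} [TopologicalSpace M'] [ChartedSpace (Cm d') M']
  [IsManifold 𝓘(ℂ, Cm d') ω M'] [T2Space M'] {U' : Set M'} {T : SF d M →ₗ[ℂ] SF d' M'} {s : ℤ}

theorem bij_of_basis {V W : Type*} [AddCommGroup V] [Module ℂ V] [AddCommGroup W] [Module ℂ W]
    (f : V →ₗ[ℂ] W) (b : Basis J ℂ V) (b' : Basis J ℂ W) (h : ∀ j, f (b j) = b' j) :
    Bijective f := by
  rw [show f = b.equiv b' (Equiv.refl _) from b.ext fun j => by simp [h]]
  exact LinearEquiv.bijective _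

/-- a quasi-isomorphism (of degree `s`) induces a bijection -/
theorem Qi.bij (h : Qi (dd d M) (fun k => Am d (k - s) U) (dd d' M') (Am d' · U') T)
    (a : Act U U' T) : Bijective a.map := by
  obtain ⟨J, deg, β, hb⟩ := exists_HB d U
  exact bij_of_basis _ hb.basis (HB.basis (h.hb (hb.shift s))) fun j => by
    rw [HB.basis_apply, HB.basis_apply]
    rfl

theorem Qi.of_bij (a : Act U U' T) (h : Bijective a.map)
    (hs : ∀ k, ∀ u ∈ Am d k U, T u ∈ Dg d' M' (k + s)) :
    Qi (dd d M) (fun k => Am d (k - s) U) (dd d' M') (Am d' · U') T := by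
  obtain ⟨J, deg, β, hb⟩ := exists_HB d U
  let b := hb.basis.map (LinearEquiv.ofBijective _ h)
  have e : (fun j => hc (T (β j)) (a.mem _ (hb.mem j).1)
      (by rw [a.comm _ (hb.mem j).1, hb.cl, map_zero])) = b := funext fun j => by
    rw [Basis.map_apply, HB.basis_apply]
    rfl
  exact (hb.shift s).qi (HB.of_cls (fun j => ⟨a.mem _ (hb.mem j).1, hs _ _ (hb.mem j)⟩) _
    (e ▸ b.linearIndependent) (e ▸ b.span_eq.ge))
    (fun k u hu => ⟨a.mem _ hu.1, sub_add_cancel k s ▸ hs _ _ hu⟩)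
    fun _ u hu => a.comm u hu.1

theorem pr_pr' (u : SF d M) : pr d M (pr d M u) = u := ext' fun e x he => by
  rw [pr_vl _ he, pr_vl _ he, Matrix.mulVec_mulVec, par_sq, Matrix.one_mulVec]

theorem dd_pr' (u : SF d M) : dd d M (pr d M u) = -pr d M (dd d M u) := by
  rw [pr_eq, gl_dd, ← map_neg]
  exact congrArg _ (ext' fun e x he => funext fun I => by
    rw [vl_neg, gl_vl _ _ he, gl_vl _ _ he, Pi.neg_apply, dgl_mulVec, dgl_mulVec]
    ring)

end one

attribute [local instance] prodCS isManifold_prod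

variable {n m : ℕ} {X Y : Type} [TopologicalSpace X] [TopologicalSpace Y] [ChartedSpace (Cm n) X]
  [ChartedSpace (Cm m) Y] [IsManifold 𝓘(ℂ, Cm n) ω X] [IsManifold 𝓘(ℂ, Cm m) ω Y] [T2Space X]
  [T2Space Y] {U : Set X} {V : Set Y}

variable (n m U V) in
/-- the cross product of forms with compact support -/
def crA : Ac n U →ₗ[ℂ] Ac m V →ₗ[ℂ] Ac (n + m) (U ×ˢ V) :=
  LinearMap.mk₂ ℂ (fun a b => ⟨cr n m X Y a b, cr_Ac a.2 b.2⟩)
    (fun a a' b => Subtype.ext (LinearMap.congr_fun (map_add (cr n m X Y) a.1 a'.1) b.1))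
    (fun c a b => Subtype.ext (LinearMap.congr_fun (map_smul (cr n m X Y) c a.1) b.1))
    (fun a b b' => Subtype.ext (map_add (cr n m X Y a) b.1 b'.1))
    fun c a b => Subtype.ext (map_smul (cr n m X Y a) c b.1)

theorem ch2_crA : Ch2 (dc n U) (dc m V) (dc (n + m) (U ×ˢ V)) (crA n m U V) :=
  Ch2.of_leib (p := (pr n X).restrict fun _ => op_Ac (opr_vl _)) (fun a => Subtype.ext (pr_pr' a.1))
    (fun a => Subtype.ext (dd_pr' a.1)) fun a b => Subtype.ext (cr_dd a.1 b.1)

variable (n m U V) in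
/-- the cross product in cohomology -/
def crH : Hc n U →ₗ[ℂ] Hc m V →ₗ[ℂ] Hc (n + m) (U ×ˢ V) := Coh.map₂ _ ch2_crA

theorem crH_hc {a : SF n X} {b : SF m Y} (ha : a ∈ Ac n U) (hb : b ∈ Ac m V) (a0 b0) :
    crH n m U V (hc a ha a0) (hc b hb b0) = hc (cr n m X Y a b) (cr_Ac ha hb) (by
      rw [cr_dd, a0, b0, map_zero, map_zero, LinearMap.zero_apply, add_zero]) := rfl

/-- **the theorem of Kuenneth** -/
theorem kuenneth (hU : IsOpen U) (hV : IsOpen V) :
    Bijective (TensorProduct.lift (crH n m U V)) := by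
  obtain ⟨I, dg, α, h⟩ := exists_HB n U
  obtain ⟨J, deg, β, h'⟩ := exists_HB m V
  exact bij_of_basis _ (h.basis.tensorProduct h'.basis) (h.prod h' hU hV).basis fun q => by
    rw [Basis.tensorProduct_apply', TensorProduct.lift.tmul, HB.basis_apply, HB.basis_apply,
      HB.basis_apply, crH_hc]

end Vale.Agent.P275KU
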