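import Vale.Agent.P275PC.Chart
import Vale.Agent.P275MC.Int
import Vale.Agent.P272.K.AMP.Prod.Chart

/-!
# P275, the cross product of forms and the theorem of Fubini
-/

set_option linter.unusedSectionVars false

open scoped Manifold ContDiff Topology Matrix
open Filter MeasureTheory Set
open Vale.Agent.P272.K Vale.Agent.P272.K.Prod Vale.Agent.P299.IX Vale.Agent.P299.IX.Fock
  Vale.Agent.P281Z.Hg Vale.Agent.P281Z.Hg.G1H Vale.Agent.P281Z.Hg.G2H Vale.Agent.P281Z.Hg.Pb1H
  Vale.Agent.P275MC Vale.Agent.P275PC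

noncomputable section

namespace Vale.Agent.P275KU

variable {n m : ℕ}

section alg

/-- the cross product at a point -/
def crv (n m : ℕ) (u : Fo n) (v : Fo m) : Fo (n + m) :=
  wg (lr (jc (fstP : Cm (n + m) → Cm n) 0) *ᵥ u) *ᵥ (lr (jc (sndP : Cm (n + m) → Cm m) 0) *ᵥ v)

theorem crv_add_l (u u' : Fo n) (v : Fo m) : crv n m (u + u') v = crv n m u v + crv n m u' v := by
  rw [crv, Matrix.mulVec_add, f1a.wg_add, Matrix.add_mulVec, crv, crv]

theorem crv_smul_l (c : ℂ) (u : Fo n) (v : Fo m) : crv n m (c • u) v = c • crv n m u v := by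
  rw [crv, Matrix.mulVec_smul, f1a.wg_smul, Matrix.smul_mulVec, crv]

theorem crv_add_r (u : Fo n) (v v' : Fo m) : crv n m u (v + v') = crv n m u v + crv n m u v' := by
  rw [crv, Matrix.mulVec_add, Matrix.mulVec_add, crv, crv]

theorem crv_smul_r (c : ℂ) (u : Fo n) (v : Fo m) : crv n m u (c • v) = c • crv n m u v := by
  rw [crv, Matrix.mulVec_smul, Matrix.mulVec_smul, crv]

variable (n m) in
/-- the cross product as a bilinear map -/
def crL : Fo n →ₗ[ℂ] Fo m →ₗ[ℂ] Fo (n + m) :=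
  LinearMap.mk₂ ℂ (crv n m) crv_add_l crv_smul_l crv_add_r crv_smul_r

theorem HD_lr {a b : ℕ} (J : Matrix (Fin a) (Fin b) ℂ) (I : FI b) : HD I.card (lr J *ᵥ ev I) := by
  intro K hK
  have h := congrFun (congrArg (· *ᵥ ev I) (f1a.lr_dg J I.card)) K
  simp only [← Matrix.mulVec_mulVec] at h
  rw [dg_mulVec, if_neg (by exact_mod_cast hK), dg, dgl_ev, if_pos rfl, one_smul] at h
  exact h.symm

variable (n m) in
/-- the sign -/
def sgc : ℂ := crv n m (ev Finset.univ) (ev Finset.univ) Finset.univ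

theorem crv_top (u : Fo n) (v : Fo m) :
    crv n m u v Finset.univ = sgc n m * u Finset.univ * v Finset.univ := by
  have h : ∀ I K, I ≠ Finset.univ ∨ K ≠ Finset.univ → crv n m (ev I) (ev K) Finset.univ = 0 := by
    intro I K h
    refine ((HD_lr _ I).wg (HD_lr _ K)) _ ?_
    have h1 := I.card_le_univ
    have h2 := K.card_le_univ
    rcases h with h | h
    · have := (Finset.card_lt_iff_ne_univ I).2 h
      simp only [Finset.card_univ, Fintype.card_fin] at *
      omega
    · have := (Finset.card_lt_iff_ne_univ K).2 h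
      simp only [Finset.card_univ, Fintype.card_fin] at *
      omega
  show crL n m u v Finset.univ = _
  conv_lhs => rw [pi_eq_sum_univ' u, pi_eq_sum_univ' v]
  simp only [map_sum, map_smul, LinearMap.sum_apply, LinearMap.smul_apply, Finset.sum_apply,
    Pi.smul_apply, smul_eq_mul]
  rw [Finset.sum_eq_single Finset.univ, Finset.sum_eq_single Finset.univ]
  · show _ * (_ * sgc n m) = _
    ring
  · exact fun I _ hI => mul_eq_zero_of_right _ (h I _ (.inl hI))
  · exact fun h => (h (Finset.mem_univ _)).elim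
  · exact fun K _ hK => mul_eq_zero_of_right _
      (Finset.sum_eq_zero fun I _ => mul_eq_zero_of_right _ (h I K (.inr hK)))
  · exact fun h => (h (Finset.mem_univ _)).elim

theorem col_cases (p : Fin ((n + m) + (n + m))) :
    (∃ l, ∀ y : Cm (n + m), cx (fstP y) l = cx y p) ∨
      ∃ l, ∀ y : Cm (n + m), cx (sndP y) l = cx y p := by
  refine Fin.addCases (fun j => ?_) (fun j => ?_) p <;>
    refine Fin.addCases (fun i => ?_) (fun i => ?_) j
  · exact .inl ⟨hl i, fun y => (Ka.cx_hl _ _).trans (Ka.cx_hl y _).symm⟩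
  · exact .inr ⟨hl i, fun y => (Ka.cx_hl _ _).trans (Ka.cx_hl y _).symm⟩
  · exact .inl ⟨ah i, fun y => (Ka.cx_ah _ _).trans (Ka.cx_ah y _).symm⟩
  · exact .inr ⟨ah i, fun y => (Ka.cx_ah _ _).trans (Ka.cx_ah y _).symm⟩

theorem col_eq {a b : ℕ} {ψ : Cm a → Cm b} {l : Fin (b + b)} {p : Fin (a + a)}
    (h : ∀ y, cx (ψ y) l = cx y p) (z : Cm a) : epsV (fun r => jc ψ z r l) = eps p := by
  rw [← epsV_single]
  congr 1
  funext r
  have h1 := congrFun (congrFun (k1b'.jc_id z) r) p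
  rw [Matrix.one_apply] at h1
  simp only [jc, Matrix.of_apply, h] at h1 ⊢
  rw [h1, Pi.single_apply]

theorem sgc_ne : sgc n m ≠ 0 := by
  intro h0
  have h : ∀ w : Fo (n + m), w ∈ Submodule.span ℂ (range fun q : Fo n × Fo m => crv n m q.1 q.2) := by
    intro w
    induction w using F1aH.fk_ind with
    | h0 => exact Submodule.subset_span ⟨(ev ∅, ev ∅), by
        simp only [crv, f1a.lr_ev, f1a.wg_one]⟩
    | ha u v h h' => exact add_mem h h'
    | hs c u h => exact Submodule.smul_mem _ c h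
    | he p w h =>
      refine Submodule.span_induction (p := fun w _ => eps p *ᵥ w ∈ _) ?_
        (by rw [Matrix.mulVec_zero]; exact zero_mem _)
        (fun a b _ _ ha hb => by rw [Matrix.mulVec_add]; exact add_mem ha hb)
        (fun c a _ ha => by rw [Matrix.mulVec_smul]; exact Submodule.smul_mem _ c ha) h
      rintro _ ⟨⟨u, v⟩, rfl⟩
      refine Submodule.subset_span ?_
      rcases col_cases p with ⟨l, hl⟩ | ⟨l, hl⟩
      · refine ⟨(eps l *ᵥ u, v), ?_⟩
        simp only [crv]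
        rw [Matrix.mulVec_mulVec u, f1a.lr_eps, col_eq hl, ← Matrix.mulVec_mulVec, f1a.wg_eps,
          ← Matrix.mulVec_mulVec]
      · refine ⟨(par *ᵥ u, eps l *ᵥ v), ?_⟩
        simp only [crv]
        rw [Matrix.mulVec_mulVec v, f1a.lr_eps, col_eq hl, Matrix.mulVec_mulVec u, ← f1a.lr_par,
          ← Matrix.mulVec_mulVec, ← Matrix.mulVec_mulVec, Matrix.mulVec_mulVec _ _ (eps p),
          ← f1a.eps_wg, ← Matrix.mulVec_mulVec]
  have h1 : ∀ w ∈ Submodule.span ℂ (range fun q : Fo n × Fo m => crv n m q.1 q.2),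
      w Finset.univ = 0 := fun w hw =>
    Submodule.span_induction (p := fun w _ => w Finset.univ = 0)
      (by rintro _ ⟨q, rfl⟩; simp only [crv_top, h0, zero_mul]) rfl
      (fun a b _ _ ha hb => by rw [Pi.add_apply, ha, hb, add_zero])
      (fun c a _ ha => by rw [Pi.smul_apply, ha, smul_zero]) hw
  simpa [ev] using h1 _ (h (ev Finset.univ))

theorem jc_lin {a b : ℕ} (L : Cm a →L[ℝ] Cm b) (z : Cm a) : jc L z = jc L 0 := by
  ext p l
  obtain ⟨α, β, v, w, e, -⟩ := Po1.rep p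
  let L' : Cm a →ₗ[ℝ] ℂ :=
    ⟨⟨fun y => cx (L y) l, fun x y => by rw [map_add, Po1.cx_add, Pi.add_apply]⟩, fun r y => by
      show cx (L (r • y)) l = r • cx (L y) l
      rw [map_smul, Po1.cx_smul, Pi.smul_apply, Complex.coe_smul]⟩
  have h : ∀ z, HasFDerivAt (fun y => cx (L y) l) (LinearMap.toContinuousLinearMap L') z :=
    fun z => (LinearMap.toContinuousLinearMap L').hasFDerivAt
  simp only [jc, Matrix.of_apply]
  rw [e, e, (h z).fderiv, (h 0).fderiv]

theorem jc_fstP (z : Cm (n + m)) : jc (fstP : Cm (n + m) → Cm n) z = jc fstP 0 :=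
  jc_lin (ContinuousLinearMap.pi fun i => ContinuousLinearMap.proj (Fin.castAdd m i)) z

theorem jc_sndP (z : Cm (n + m)) : jc (sndP : Cm (n + m) → Cm m) z = jc sndP 0 :=
  jc_lin (ContinuousLinearMap.pi fun i => ContinuousLinearMap.proj (Fin.natAdd n i)) z

theorem int_prod (f : Cm n → ℂ) (g : Cm m → ℂ) :
    ∫ z : Cm (n + m), f (fstP z) * g (sndP z) = (∫ z, f z) * ∫ z, g z := by
  have h : MeasurePreserving (Fin.appendHomeomorph (X := ℂ) n m).symm :=
    (volume_measurePreserving_sumPiEquivProdPi fun _ : Fin n ⊕ Fin m => ℂ).comp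
      (volume_measurePreserving_piCongrLeft (fun _ => ℂ) finSumFinEquiv).symm
  rw [← integral_prod_mul]
  exact h.integral_comp (Fin.appendHomeomorph n m).symm.measurableEmbedding
    fun q => f q.1 * g q.2

end alg

attribute [local instance] prodCS isManifold_prod

variable {X Y : Type} [TopologicalSpace X] [TopologicalSpace Y] [ChartedSpace (Cm n) X]
  [ChartedSpace (Cm m) Y] [IsManifold 𝓘(ℂ, Cm n) ω X] [IsManifold 𝓘(ℂ, Cm m) ω Y]

theorem smo_fst : Smo (n + m) n (Prod.fst : X × Y → X) :=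
  ⟨continuous_fst, fun E c z hE hc => by
    obtain ⟨e, e', rfl, h1, -⟩ := at_dec hE
    exact ContDiffAt.comp (g := fun w => c (e.symm w)) (f := fstP) _
      ((fstP_glue _ _).symm ▸ tr_sm h1 hc) contDiff_fstP.contDiffAt⟩

theorem smo_snd : Smo (n + m) m (Prod.snd : X × Y → Y) :=
  ⟨continuous_snd, fun E c z hE hc => by
    obtain ⟨e, e', rfl, -, h1⟩ := at_dec hE
    exact ContDiffAt.comp (g := fun w => c (e'.symm w)) (f := sndP) _
      ((sndP_glue _ _).symm ▸ tr_sm h1 hc) contDiff_sndP.contDiffAt⟩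

omit [IsManifold 𝓘(ℂ, Cm m) ω Y] in
theorem smo_pair {N : ℕ} {P : Type} [TopologicalSpace P] [ChartedSpace (Cm N) P] {p : P → X}
    {q : P → Y} (hp : Smo N n p) (hq : Smo N m q) : Smo N (n + m) fun z => (p z, q z) :=
  ⟨hp.cont.prodMk hq.cont, fun c E z hc hE => by
    obtain ⟨e, e', rfl, h1, h2⟩ := at_dec hE
    exact contDiff_glue (hp.sm c e z hc h1) (hq.sm c e' z hc h2)⟩

variable (n m X Y) in
/-- the cross product -/
def cr : SF n X →ₗ[ℂ] SF m Y →ₗ[ℂ] SF (n + m) (X × Y) :=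
  LinearMap.mk₂ ℂ (fun a b => wd (pb smo_fst a) (pb smo_snd b))
    (fun a a' b => by rw [map_add, wd_add]) (fun c a b => by rw [map_smul, wd_smul])
    (fun a b b' => by rw [map_add, map_add]) fun c a b => by rw [map_smul, map_smul]

theorem cr_apply (a : SF n X) (b : SF m Y) :
    cr n m X Y a b = wd (pb smo_fst a) (pb smo_snd b) := rfl

variable {a : SF n X} {b : SF m Y} {U : Set X} {V : Set Y} {j k : ℤ}

theorem cr_dd (a : SF n X) (b : SF m Y) : dd (n + m) (X × Y) (cr n m X Y a b) =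
    cr n m X Y (dd n X a) b + cr n m X Y (pr n X a) (dd m Y b) := by
  rw [cr_apply, dd_wd, ← pb_dd, ← pb_dd, ← pb_pr, cr_apply, cr_apply]

theorem cr_Sp (ha : a ∈ Sp n U) (hb : b ∈ Sp m V) : cr n m X Y a b ∈ Sp (n + m) (U ×ˢ V) := by
  intro z hz
  by_cases h : z.1 ∈ U
  · exact op_ZP (opr_vl (cov_wg _)) (pb_ZP smo_snd (hb _ fun h1 => hz ⟨h, h1⟩))
  · exact wd_ZP_left (pb_ZP smo_fst (ha _ h)) _

theorem cr_Ac (ha : a ∈ Ac n U) (hb : b ∈ Ac m V) : cr n m X Y a b ∈ Ac (n + m) (U ×ˢ V) := by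
  obtain ⟨K, h1, h2, h3⟩ := ha
  obtain ⟨L, k1, k2, k3⟩ := hb
  exact ⟨K ×ˢ L, h1.prod k1, prod_mono h2 k2, cr_Sp h3 k3⟩

theorem cr_Dg (ha : a ∈ Dg n X j) (hb : b ∈ Dg m Y k) :
    cr n m X Y a b ∈ Dg (n + m) (X × Y) (j + k) := wd_Dg (pb_Dg _ ha) (pb_Dg _ hb)

theorem cr_Am (ha : a ∈ Am n j U) (hb : b ∈ Am m k V) :
    cr n m X Y a b ∈ Am (n + m) (j + k) (U ×ˢ V) := ⟨cr_Ac ha.1 hb.1, cr_Dg ha.2 hb.2⟩

theorem cr_vl (a : SF n X) (b : SF m Y) {e : Chart n X} {e' : Chart m Y} {x : X} {y : Y}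
    (h : At e x) (h' : At e' y) :
    vl (cr n m X Y a b) (pc e e') (glue (e x) (e' y)) = crv n m (vl a e (e x)) (vl b e' (e' y)) := by
  have h1 := at_pc h h'
  have h2 : jc (fun z => e ((pc e e').symm z).1) (pc e e' (x, y)) = jc fstP 0 :=
    (k1b'.jc_congr (by
      filter_upwards [(pc e e').open_target.mem_nhds ((pc e e').map_source h1.2)] with z hz
      exact e.right_inv hz.1)).trans (jc_fstP _)
  have h3 : jc (fun z => e' ((pc e e').symm z).2) (pc e e' (x, y)) = jc sndP 0 :=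
    (k1b'.jc_congr (by
      filter_upwards [(pc e e').open_target.mem_nhds ((pc e e').map_source h1.2)] with z hz
      exact e'.right_inv hz.2)).trans (jc_sndP _)
  refine (wd_vl _ _ h1).trans ?_
  rw [pb_vl smo_fst a _ e _ h1 h, pb_vl smo_snd b _ e' _ h1 h', h2, h3, crv]

theorem pc_mem {e : Chart n X} {e' : Chart m Y} (h : e ∈ atlas (Cm n) X)
    (h' : e' ∈ atlas (Cm m) Y) : pc e e' ∈ atlas (Cm (n + m)) (X × Y) := ⟨e, h, e', h', rfl⟩

variable [T2Space X] [T2Space Y]

/-- **the theorem of Fubini** -/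
theorem itc_cr (ha : a ∈ Ac n univ) (hb : b ∈ Ac m univ) :
    itc (n + m) (X × Y) (cr n m X Y a b) = sgc n m * itc n X a * itc m Y b := by
  refine Ac_ext (L := itc (n + m) (X × Y) ∘ₗ (cr n m X Y).flip b)
    (R := (sgc n m * itc m Y b) • itc n X) (fun e he a ha => ?_) ha |>.trans (by
      rw [LinearMap.smul_apply, smul_eq_mul, mul_right_comm])
  refine Ac_ext (L := itc (n + m) (X × Y) ∘ₗ cr n m X Y a)
    (R := (sgc n m * itc n X a) • itc m Y) (fun e' he' b hb => ?_) hb |>.trans (by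
      rw [LinearMap.smul_apply, LinearMap.smul_apply, smul_eq_mul, smul_eq_mul, mul_right_comm])
  rw [LinearMap.comp_apply, LinearMap.smul_apply, itc_chart (pc_mem he he') (cr_Ac ha hb),
    itc_chart he ha, itc_chart he' hb, smul_eq_mul, mul_assoc, ← int_prod, ← integral_const_mul]
  refine integral_congr_ae (.of_forall fun z => ?_)
  by_cases h1 : fstP z ∈ e.target
  · by_cases h2 : sndP z ∈ e'.target
    · have h3 := cr_vl a b (at_tg he h1) (at_tg he' h2)
      rw [e.right_inv h1, e'.right_inv h2, glue_fst_snd] at h3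
      simp only [h3, crv_top, mul_assoc]
    · simp only [(vl_isF b).off e' _ fun h => h2 h.2,
        (vl_isF (cr n m X Y a b)).off (pc e e') z fun h => h2 h.2.2, Pi.zero_apply, mul_zero]
  · simp only [(vl_isF a).off e _ fun h => h1 h.2,
      (vl_isF (cr n m X Y a b)).off (pc e e') z fun h => h1 h.2.1, Pi.zero_apply, mul_zero,
      zero_mul]

end Vale.Agent.P275KU
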