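import Mathlib.Topology.Basic
import Mathlib.LinearAlgebra.Prod
import Mathlib.LinearAlgebra.DFinsupp
import Mathlib.LinearAlgebra.Complex.Module
import Mathlib.Tactic.Abel

/-!
# P275, complexes of cosheaves: locally exact implies exact
-/

set_option linter.unusedSectionVars false

open Set

noncomputable section

namespace Vale.Agent.P275KU

variable {X : Type*} [TopologicalSpace X] {T T' : Type*} [AddCommGroup T] [Module ℂ T]
  [AddCommGroup T'] [Module ℂ T']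

/-- `C k U` = elements of degree `k` with support in `U` -/
structure Cos (d : Module.End ℂ T) (C : ℤ → Set X → Submodule ℂ T) : Prop where
  dd : ∀ u, d (d u) = 0
  dC : ∀ k U u, u ∈ C k U → d u ∈ C (k + 1) U
  mono : ∀ k U V, U ⊆ V → C k U ≤ C k V
  un : ∀ k (S : Set (Set X)), (∀ V ∈ S, IsOpen V) → C k (⋃₀ S) ≤ ⨆ V ∈ S, C k V
  int : ∀ k U V, C k U ⊓ C k V ≤ C k (U ∩ V)
  bd : ∃ N, ∀ k U, N ≤ k → C k U = ⊥

/-- exactness over `U` in degree `k` -/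
def Ex (d : Module.End ℂ T) (C : ℤ → Set X → Submodule ℂ T) (k : ℤ) (U : Set X) : Prop :=
  ∀ u ∈ C k U, d u = 0 → ∃ w ∈ C (k - 1) U, d w = u

/-- `B` contains a basis of the topology -/
def Bas (B : Set X → Prop) : Prop :=
  ∀ U : Set X, IsOpen U → ∀ x ∈ U, ∃ V, B V ∧ IsOpen V ∧ x ∈ V ∧ V ⊆ U

variable {d : Module.End ℂ T} {C : ℤ → Set X → Submodule ℂ T} {d' : Module.End ℂ T'}
  {C' : ℤ → Set X → Submodule ℂ T'} {B : Set X → Prop}

theorem Cos.un2 (h : Cos d C) (k : ℤ) {U V : Set X} (hU : IsOpen U) (hV : IsOpen V) :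
    C k (U ∪ V) ≤ C k U ⊔ C k V := by
  have h1 := h.un k {U, V} (by rintro _ (rfl | rfl) <;> assumption)
  rwa [sUnion_pair, iSup_pair] at h1

theorem Cos.empty (h : Cos d C) (k : ℤ) : C k ∅ = ⊥ := by
  have h1 := h.un k ∅ (fun _ h => h.elim)
  rwa [sUnion_empty, iSup_emptyset, le_bot_iff] at h1

/-- Mayer-Vietoris -/
theorem Cos.mv (h : Cos d C) {k : ℤ} {U V : Set X} (hU : IsOpen U) (hV : IsOpen V)
    (h1 : Ex d C k U) (h2 : Ex d C k V) (h3 : Ex d C (k + 1) (U ∩ V)) : Ex d C k (U ∪ V) := by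
  intro u hu h0
  obtain ⟨a, ha, b, hb, rfl⟩ := Submodule.mem_sup.1 (h.un2 k hU hV hu)
  rw [map_add] at h0
  obtain ⟨w, hw, e⟩ := h3 (d a) (h.int _ _ _ ⟨h.dC _ _ _ ha, by
    rw [eq_neg_of_add_eq_zero_left h0]
    exact neg_mem (h.dC _ _ _ hb)⟩) (h.dd a)
  rw [add_sub_cancel_right] at hw
  obtain ⟨a', ha', e1⟩ := h1 (a - w) (sub_mem ha (h.mono _ _ _ inter_subset_left hw))
    (by rw [map_sub, e, sub_self])
  obtain ⟨b', hb', e2⟩ := h2 (b + w) (add_mem hb (h.mono _ _ _ inter_subset_right hw))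
    (by rw [map_add, e, add_comm, h0])
  refine ⟨a' + b', add_mem (h.mono _ _ _ subset_union_left ha')
    (h.mono _ _ _ subset_union_right hb'), ?_⟩
  rw [map_add, e1, e2]
  abel

theorem Cos.step (h : Cos d C) (hB : Bas B) {k : ℤ} (h1 : ∀ V, B V → Ex d C k V)
    (h2 : ∀ U, IsOpen U → Ex d C (k + 1) U) {U : Set X} (hU : IsOpen U) : Ex d C k U := by
  intro u hu h0
  have e : U = ⋃₀ {V | B V ∧ IsOpen V ∧ V ⊆ U} := Subset.antisymm (fun x hx =>
    let ⟨V, a, b, c, e⟩ := hB U hU x hx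
    ⟨V, ⟨a, b, e⟩, c⟩) (sUnion_subset fun _ hV => hV.2.2)
  have h3 := h.un k {V | B V ∧ IsOpen V ∧ V ⊆ U} (fun _ hV => hV.2.1) (e ▸ hu)
  have key : ∃ W, IsOpen W ∧ W ⊆ U ∧ Ex d C k W ∧ u ∈ C k W := by
    rw [iSup_subtype'] at h3
    refine Submodule.iSup_induction _ (motive := fun u => ∃ W, IsOpen W ∧ W ⊆ U ∧ Ex d C k W ∧
      u ∈ C k W) h3 (fun V v hv => ⟨V, V.2.2.1, V.2.2.2, h1 _ V.2.1, hv⟩)
      ⟨∅, isOpen_empty, empty_subset _, fun v hv _ => ⟨0, zero_mem _, ?_⟩, zero_mem _⟩ ?_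
    · rw [h.empty] at hv
      rw [map_zero, (Submodule.mem_bot ℂ).1 hv]
    · rintro a b ⟨W, a1, a2, a3, a4⟩ ⟨W', b1, b2, b3, b4⟩
      exact ⟨W ∪ W', a1.union b1, union_subset a2 b2, h.mv a1 b1 a3 b3 (h2 _ (a1.inter b1)),
        add_mem (h.mono _ _ _ subset_union_left a4) (h.mono _ _ _ subset_union_right b4)⟩
  obtain ⟨W, -, a2, a3, a4⟩ := key
  obtain ⟨w, hw, e⟩ := a3 u a4 h0
  exact ⟨w, h.mono _ _ _ a2 hw, e⟩

/-- **locally exact in the degrees `≥ m` implies exact in the degrees `≥ m`** -/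
theorem Cos.exact (h : Cos d C) (hB : Bas B) {m : ℤ} (h1 : ∀ k V, m ≤ k → B V → Ex d C k V)
    {k : ℤ} (hk : m ≤ k) {U : Set X} (hU : IsOpen U) : Ex d C k U := by
  obtain ⟨N, hN⟩ := h.bd
  have h2 : ∀ k, N ≤ k → ∀ U, Ex d C k U := fun k hk U u hu _ => ⟨0, zero_mem _, by
    rw [hN k U hk] at hu
    rw [map_zero, (Submodule.mem_bot ℂ).1 hu]⟩
  rcases le_total N k with h3 | h3
  · exact h2 k h3 U
  revert hk U
  refine Int.leInductionDown (motive := fun k _ => m ≤ k → ∀ {U : Set X}, IsOpen U → Ex d C k U)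
    (fun _ U _ => h2 N le_rfl U) (fun j _ ih hj U hU => ?_) k h3
  exact h.step hB (fun V hV => h1 _ V hj hV)
    (fun W hW => by rw [sub_add_cancel]; exact ih (by omega) hW) hU

/-- a morphism -/
structure Mor (d : Module.End ℂ T) (C : ℤ → Set X → Submodule ℂ T) (d' : Module.End ℂ T')
    (C' : ℤ → Set X → Submodule ℂ T') (f : T →ₗ[ℂ] T') : Prop where
  map : ∀ k U u, u ∈ C k U → f u ∈ C' k U
  comm : ∀ u, d' (f u) = f (d u)

/-- `f` induces an isomorphism over `U` in all degrees -/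
structure Qis (d : Module.End ℂ T) (C : ℤ → Set X → Submodule ℂ T) (d' : Module.End ℂ T')
    (C' : ℤ → Set X → Submodule ℂ T') (f : T →ₗ[ℂ] T') (U : Set X) : Prop where
  inj : ∀ k, ∀ a ∈ C k U, d a = 0 → ∀ y ∈ C' (k - 1) U, f a = d' y → ∃ x ∈ C (k - 1) U, d x = a
  surj : ∀ k, ∀ b ∈ C' k U, d' b = 0 →
    ∃ a ∈ C k U, d a = 0 ∧ ∃ y ∈ C' (k - 1) U, b = f a + d' y

variable {f : T →ₗ[ℂ] T'}

/-- the differential of the cone -/
def cd (d : Module.End ℂ T) (d' : Module.End ℂ T') (f : T →ₗ[ℂ] T') : Module.End ℂ (T × T') :=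
  LinearMap.prod (-(d ∘ₗ LinearMap.fst ℂ T T'))
    (f ∘ₗ LinearMap.fst ℂ T T' + d' ∘ₗ LinearMap.snd ℂ T T')

theorem cd_apply (u : T × T') : cd d d' f u = (-d u.1, f u.1 + d' u.2) := rfl

theorem cos_cone (h : Cos d C) (h' : Cos d' C') (hf : Mor d C d' C' f) :
    Cos (cd d d' f) fun k U => (C (k + 1) U).prod (C' k U) where
  dd u := by
    simp only [cd_apply, map_neg, map_add, h.dd, h'.dd, hf.comm, neg_zero, add_zero,
      neg_add_cancel, Prod.mk_zero_zero]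
  dC k U u hu := ⟨neg_mem (h.dC _ _ _ hu.1), add_mem (hf.map _ _ _ hu.1) (h'.dC _ _ _ hu.2)⟩
  mono k U V e := Submodule.prod_mono (h.mono _ _ _ e) (h'.mono _ _ _ e)
  un k S hS := by
    rintro ⟨a, b⟩ ⟨ha, hb⟩
    rw [show (a, b) = LinearMap.inl ℂ T T' a + LinearMap.inr ℂ T T' b by simp]
    refine add_mem ?_ ?_
    · refine Submodule.mem_comap.1 ((h.un _ S hS).trans (iSup₂_le fun V hV u hu => ?_) ha)
      exact Submodule.mem_comap.2 (Submodule.mem_iSup_of_mem V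
        (Submodule.mem_iSup_of_mem hV ⟨hu, zero_mem _⟩))
    · refine Submodule.mem_comap.1 ((h'.un _ S hS).trans (iSup₂_le fun V hV u hu => ?_) hb)
      exact Submodule.mem_comap.2 (Submodule.mem_iSup_of_mem V
        (Submodule.mem_iSup_of_mem hV ⟨zero_mem _, hu⟩))
  int k U V u hu := ⟨h.int _ _ _ ⟨hu.1.1, hu.2.1⟩, h'.int _ _ _ ⟨hu.1.2, hu.2.2⟩⟩
  bd := by
    obtain ⟨N, hN⟩ := h.bd
    obtain ⟨N', hN'⟩ := h'.bd
    exact ⟨max N N', fun k U hk => by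
      rw [hN _ _ (by omega), hN' _ _ (by omega), Submodule.prod_bot]⟩

theorem qis_iff (hf : Mor d C d' C' f) {U : Set X} : Qis d C d' C' f U ↔
    ∀ k, Ex (cd d d' f) (fun k U => (C (k + 1) U).prod (C' k U)) k U := by
  constructor
  · rintro h k ⟨a, b⟩ ⟨ha, hb⟩ h0
    rw [cd_apply, Prod.mk_eq_zero, neg_eq_zero] at h0
    obtain ⟨x, hx, e⟩ := h.inj (k + 1) a ha h0.1 (-b)
      (by rw [add_sub_cancel_right]; exact neg_mem hb)
      (by rw [map_neg]; exact eq_neg_of_add_eq_zero_left h0.2)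
    rw [add_sub_cancel_right] at hx
    obtain ⟨z, hz, e1, y, hy, e2⟩ := h.surj k (b + f x) (add_mem hb (hf.map _ _ _ hx))
      (by rw [map_add, hf.comm, e, add_comm]; exact h0.2)
    refine ⟨(z - x, y), ⟨by rw [sub_add_cancel]; exact sub_mem hz hx, hy⟩, ?_⟩
    rw [cd_apply, map_sub, map_sub, e1, e, zero_sub, neg_neg, sub_add_eq_add_sub, ← e2,
      add_sub_cancel_right]
  · refine fun h => ⟨fun k a ha h0 y hy e => ?_, fun k b hb h0 => ?_⟩
    · obtain ⟨⟨x, z⟩, ⟨hx, -⟩, e1⟩ := h (k - 1) (a, -y)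
        ⟨by rw [sub_add_cancel]; exact ha, neg_mem hy⟩
        (by rw [cd_apply, h0, map_neg, e, neg_zero, add_neg_cancel, Prod.mk_zero_zero])
      rw [sub_add_cancel] at hx
      exact ⟨-x, neg_mem hx, by rw [map_neg]; exact congrArg Prod.fst e1⟩
    · obtain ⟨⟨x, z⟩, ⟨hx, hz⟩, e1⟩ := h k (0, b) ⟨zero_mem _, hb⟩
        (by rw [cd_apply, h0, map_zero, map_zero, neg_zero, add_zero, Prod.mk_zero_zero])
      rw [sub_add_cancel] at hx
      exact ⟨x, hx, neg_eq_zero.1 (congrArg Prod.fst e1), z, hz, (congrArg Prod.snd e1).symm⟩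

/-- **a local quasi-isomorphism is a quasi-isomorphism** -/
theorem Mor.qis (hf : Mor d C d' C' f) (h : Cos d C) (h' : Cos d' C') (hB : Bas B)
    (h1 : ∀ V, B V → Qis d C d' C' f V) {U : Set X} (hU : IsOpen U) : Qis d C d' C' f U :=
  (qis_iff hf).2 fun k => (cos_cone h h' hf).exact hB (m := k)
    (fun j V _ hV => (qis_iff hf).1 (h1 V hV) j) le_rfl hU

end Vale.Agent.P275KU
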