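import Vale.Agent.P275KU.Qi
import Vale.Agent.P275KU.Cr
import Vale.Agent.P275MC.Ext

/-!
# P275, the theorem of Kuenneth for the cohomology with compact supports
-/

set_option linter.unusedSectionVars false

open scoped Manifold ContDiff Topology Matrix
open Filter MeasureTheory Set
open Vale.Agent.P272.K Vale.Agent.P272.K.Prod Vale.Agent.P299.IX Vale.Agent.P299.IX.Fock
  Vale.Agent.P281Z.Hg Vale.Agent.P281Z.Hg.G1H Vale.Agent.P281Z.Hg.G2H Vale.Agent.P281Z.Hg.Pb1H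
  Vale.Agent.P275MC Vale.Agent.P275PC

noncomputable section

namespace Vale.Agent.P275KU

section one

variable {d : ℕ} {M : Type} [TopologicalSpace M] [ChartedSpace (Cm d) M]
  [IsManifold 𝓘(ℂ, Cm d) ω M] {U : Set M} {J : Type*} {deg : J → ℤ} {β : J → SF d M}

variable (d) in
/-- the classes of the `β j` are a basis of the cohomology with compact supports of `U` -/
abbrev HB (U : Set M) (deg : J → ℤ) (β : J → SF d M) : Prop := Hb (dd d M) (Am d · U) deg β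

theorem HB.le (h : HB d U deg β) (j : J) : deg j ≤ (d + d : ℕ) := not_lt.1 fun h1 =>
  h.ne j ((Submodule.mem_bot ℂ).1 (Dg_big (M := M) h1 ▸ (h.mem j).2))

theorem HB.congr_deg {deg' : J → ℤ} {β' : J → SF d M} (h : HB d U deg β) (e : ∀ j, deg j = deg' j)
    (e' : ∀ j, β j = β' j) : HB d U deg' β' := by
  rwa [← funext e, ← funext e']

variable (d) in
/-- nonempty convex charts -/
def Bc (V : Set M) : Prop := ∃ e ∈ atlas (Cm d) M, ∃ W : Set (Cm d), IsOpen W ∧ Convex ℝ W ∧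
  W ⊆ e.target ∧ V = cv e W ∧ V.Nonempty

theorem bas_Bc : Bas (Bc d (M := M)) := fun _ hU x hx =>
  let ⟨e, he, W, h1, h2, h3, h4, h5⟩ := exists_cv (d := d) hU hx
  ⟨_, ⟨e, he, W, h1, h2, h3, rfl, x, h4⟩, cv_open e h1, h4, h5⟩

theorem Bc.isOpen (h : Bc d U) : IsOpen U :=
  let ⟨e, _, _, h1, _, _, h4, _⟩ := h
  h4 ▸ cv_open e h1

theorem dd_top {k : ℤ} {ρ : SF d M} (hρ : ρ ∈ Dg d M k) (hk : k = (d + d : ℕ)) : dd d M ρ = 0 :=
  (Submodule.mem_bot ℂ).1 (Dg_big (d := d) (M := M) (k := k + 1) (by omega) ▸ dd_Dg hρ)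

variable [T2Space M]

theorem Bc.ex (h : Bc d U) : ∃ ρ ∈ Am d (d + d : ℕ) U, itc d M ρ = 1 :=
  let ⟨_, _, _, _, _, _, _, _, hx⟩ := id h
  ex_itc_one (h.isOpen.mem_nhds hx)

theorem cos_Am {Z : Type*} [TopologicalSpace Z] (φ : Set Z → Set M) (s : ℤ)
    (h1 : ∀ V, IsOpen V → IsOpen (φ V)) (h2 : ∀ U V, U ⊆ V → φ U ⊆ φ V)
    (h3 : ∀ S : Set (Set Z), φ (⋃₀ S) ⊆ ⋃ V : S, φ V) (h4 : ∀ U V, φ U ∩ φ V ⊆ φ (U ∩ V)) :
    Cos (dd d M) fun k U => Am d (k - s) (φ U) where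
  dd := dd_dd
  dC k U u hu := by
    rw [add_sub_right_comm]
    exact dd_Am hu
  mono k U V h := Am_mono _ (h2 U V h)
  un k S hS := by
    rw [iSup_subtype', ← Am_iUnion fun V : S => h1 _ (hS _ V.2)]
    exact Am_mono _ (h3 S)
  int k U V u hu := ⟨Ac_mono (h4 U V) (Ac_inter hu.1.1 hu.2.1), hu.1.2⟩
  bd := ⟨(d + d : ℕ) + 1 + s, fun k U hk => by rw [Am, Dg_big (by omega), inf_bot_eq]⟩

theorem cos_Am0 {Z : Type*} [TopologicalSpace Z] (φ : Set Z → Set M)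
    (h1 : ∀ V, IsOpen V → IsOpen (φ V)) (h2 : ∀ U V, U ⊆ V → φ U ⊆ φ V)
    (h3 : ∀ S : Set (Set Z), φ (⋃₀ S) ⊆ ⋃ V : S, φ V) (h4 : ∀ U V, φ U ∩ φ V ⊆ φ (U ∩ V)) :
    Cos (dd d M) fun k U => Am d k (φ U) := by
  simpa only [sub_zero] using cos_Am (d := d) φ 0 h1 h2 h3 h4

theorem cos_id (s : ℤ) : Cos (dd d M) fun k (U : Set M) => Am d (k - s) U :=
  cos_Am id s (fun _ h => h) (fun _ _ h => h) (fun S => (sUnion_eq_iUnion (s := S)).le)
    fun _ _ => Subset.rfl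

theorem cos_id0 : Cos (dd d M) fun k (U : Set M) => Am d k U := by
  simpa only [sub_zero] using cos_id (d := d) (M := M) 0

/-- the cohomology with compact supports of a convex chart -/
theorem Bc.hb (h : Bc d U) {k : ℤ} (hk : k = (d + d : ℕ)) {ρ : SF d M} (hρ : ρ ∈ Am d k U)
    (h0 : itc d M ρ ≠ 0) : HB d U (fun _ : Unit => k) fun _ => ρ := by
  obtain ⟨e, he, W, h1, h2, h3, rfl, -⟩ := h
  refine Hb.of (fun _ => hρ) (fun _ => dd_top hρ.2 hk) (fun j c _ y hy h4 => ?_) fun j b hb h4 => ?_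
  · have h5 := itc_dd (Ac_mono (subset_univ _) hy.1)
    rw [← h4, Finsupp.linearCombination_unique, map_smul, smul_eq_mul, mul_eq_zero] at h5
    exact Finsupp.ext fun _ => h5.resolve_right h0
  · have h5 : Finsupp.single () (itc d M b / itc d M ρ) ∈ Fs (fun _ : Unit => k) Pt j :=
      mem_FP.2 fun _ hj => by
        rw [Finsupp.single_eq_same, itc_Dg (Am_mono _ (subset_univ _) hb) (hk ▸ hj.symm), zero_div]
    have h6 := sub_mem hb (lc_mem (G := (Am d · (cv e W))) (β := fun _ => ρ) (fun _ => hρ) h5)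
    obtain ⟨y, hy, h7⟩ := pcM_deg he h1 h2 h3 h6
      (by rw [map_sub, h4, lc_cl fun _ => dd_top hρ.2 hk, sub_zero]) (by
        rw [← itc_chart he (Ac_mono inter_subset_left h6.1), map_sub,
          Finsupp.linearCombination_single, map_smul, smul_eq_mul, div_mul_cancel₀ _ h0, sub_self])
    exact ⟨_, h5, y, hy, by rw [h7, add_sub_cancel]⟩

variable {M' : Type} [TopologicalSpace M'] [ChartedSpace (Cm d) M'] [IsManifold 𝓘(ℂ, Cm d) ω M']
  {i : M' → M}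

omit [T2Space M] in
theorem qi_pb [T2Space M] [T2Space M'] (h : OE d i) (hU : U ⊆ range i) :
    Qi (dd d M) (Am d · U) (dd d M') (Am d · (i ⁻¹' U)) (pb h.smo) :=
  Qi.of_inv h.ext (fun _ _ ha => ⟨h.pb_Ac hU ha.1, pb_Dg _ ha.2⟩) (fun _ a _ => (pb_dd _ a).symm)
    (fun _ _ hb => ⟨Am_mono _ (image_preimage_subset _ _) (h.ext_Am hb), h.pb_ext hb.1⟩)
    (fun _ _ ha => h.pb_inj (Sp_mono hU (Ac_Sp ha.1))) fun _ _ => dd_Am

/-- transport along an open embedding -/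
theorem HB.pb [T2Space M'] (h : HB d U deg β) (hi : OE d i) (hU : U ⊆ range i) :
    HB d (i ⁻¹' U) deg fun j => pb hi.smo (β j) := (qi_pb hi hU).hb h

theorem qi_ext [T2Space M'] (h : OE d i) (W : Set M') :
    Qi (dd d M') (Am d · W) (dd d M) (Am d · (i '' W)) h.ext :=
  Qi.of_inv (P275MC.pb h.smo) (fun _ _ => h.ext_Am) (fun _ _ ha => (h.ext_dd ha.1).symm)
    (fun _ _ hb => ⟨⟨h.inj.preimage_image W ▸ h.pb_Ac (image_subset_range i W) hb.1, pb_Dg _ hb.2⟩,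
      h.ext_pb (Sp_mono (image_subset_range i W) (Ac_Sp hb.1))⟩)
    (fun _ _ ha h0 => by rw [← h.pb_ext ha.1, h0, map_zero]) fun _ _ => dd_Am

theorem HB.ext [T2Space M'] {W : Set M'} {γ : J → SF d M'} (h : HB d W deg γ) (hi : OE d i) :
    HB d (i '' W) deg fun j => hi.ext (γ j) := (qi_ext hi W).hb h

end one

attribute [local instance] prodCS isManifold_prod

variable {n m : ℕ} {X Y : Type} [TopologicalSpace X] [TopologicalSpace Y] [ChartedSpace (Cm n) X]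
  [ChartedSpace (Cm m) Y] [IsManifold 𝓘(ℂ, Cm n) ω X] [IsManifold 𝓘(ℂ, Cm m) ω Y] [T2Space X]
  [T2Space Y] {U : Set X} {V : Set Y} {I J : Type*} {dg : I → ℤ} {deg : J → ℤ} {α : I → SF n X}
  {β : J → SF m Y}

theorem Bc.prod (h : Bc n U) (h' : Bc m V) : Bc (n + m) (U ×ˢ V) := by
  obtain ⟨e, he, W, h1, h2, h3, rfl, h4⟩ := h
  obtain ⟨e', he', W', k1, k2, k3, rfl, k4⟩ := h'
  refine ⟨pc e e', pc_mem he he', fstP ⁻¹' W ∩ sndP ⁻¹' W',
    (h1.preimage continuous_fstP).inter (k1.preimage continuous_sndP),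
    fun z hz w hw a b ha hb hab => ⟨h2 hz.1 hw.1 ha hb hab, k2 hz.2 hw.2 ha hb hab⟩,
    fun z hz => ⟨h3 hz.1, k3 hz.2⟩, Set.ext fun p => ?_, h4.prod k4⟩
  simp only [cv, mem_prod, mem_inter_iff, mem_preimage, pc_source, pc_apply, fstP_glue, sndP_glue]
  tauto

/-- the first factor is a convex chart -/
theorem qi_cv (hU : Bc n U) {ρ : SF n X} (hρ : ρ ∈ Am n (n + n : ℕ) U) (h0 : itc n X ρ ≠ 0)
    (hV : IsOpen V) : Qi (dd m Y) (fun k => Am m (k - (n + n : ℕ)) V) (dd (n + m) (X × Y))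
      (Am (n + m) · (U ×ˢ V)) (cr n m X Y ρ) := by
  have h1 : Mor (dd m Y) (fun k (V : Set Y) => Am m (k - (n + n : ℕ)) V) (dd (n + m) (X × Y))
      (fun k V => Am (n + m) k (U ×ˢ V)) (cr n m X Y ρ) :=
    ⟨fun k V b hb => by simpa only [add_sub_cancel] using cr_Am hρ hb, fun b => by
      rw [cr_dd, dd_top hρ.2 rfl, map_zero, LinearMap.zero_apply, zero_add, pr_Dg hρ.2,
        Int.negOnePow_even _ (by simp), Units.val_one, Int.cast_one, one_smul]⟩
  refine h1.qi (cos_id _) (cos_Am0 (U ×ˢ ·) (fun _ => hU.isOpen.prod)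
    (fun _ _ => prod_mono Subset.rfl) (fun S => ?_) fun _ _ p hp => ⟨hp.1.1, hp.1.2, hp.2.2⟩)
    (bas_Bc (d := m)) (fun V hV => ?_) hV
  · rintro p ⟨h2, W, hW, h3⟩
    exact mem_iUnion.2 ⟨⟨W, hW⟩, h2, h3⟩
  · obtain ⟨σ, hσ, h2⟩ := hV.ex
    refine ((hV.hb rfl hσ (h2 ▸ one_ne_zero)).shift (n + n : ℕ)).qi ((hU.prod hV).hb
      (by push_cast; ring) (add_comm (_ : ℤ) _ ▸ cr_Am hρ hσ) ?_) (fun k => h1.map k V)
      fun _ b _ => h1.comm b
    rw [itc_cr (Ac_mono (subset_univ _) hρ.1) (Ac_mono (subset_univ _) hσ.1), h2, mul_one]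
    exact mul_ne_zero sgc_ne h0

variable (n X) in
/-- `a ↦ ∑ a j × β j` -/
def crs (β : J → SF m Y) : (J →₀ SF n X) →ₗ[ℂ] SF (n + m) (X × Y) :=
  Finsupp.lsum ℂ fun j => (cr n m X Y).flip (β j)

theorem crs_single (β : J → SF m Y) (j : J) (a : SF n X) :
    crs n X β (Finsupp.single j a) = cr n m X Y a (β j) := Finsupp.lsum_single _ _ _ _

/-- **Kuenneth**, first form -/
theorem qi_crs (h : HB m V deg β) (hV : IsOpen V) (hU : IsOpen U) :
    Qi (Finsupp.mapRange.linearMap (dd n X)) (Fs deg (Am n · U)) (dd (n + m) (X × Y))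
      (Am (n + m) · (U ×ˢ V)) (crs n X β) := by
  have h1 : Mor (Finsupp.mapRange.linearMap (dd n X)) (fun k (U : Set X) => Fs deg (Am n · U) k)
      (dd (n + m) (X × Y)) (fun k U => Am (n + m) k (U ×ˢ V)) (crs n X β) :=
    ⟨fun k U a ha => Submodule.sum_mem _ fun j _ => by
      simpa only [sub_add_cancel, LinearMap.flip_apply] using cr_Am (mem_Fs.1 ha j) (h.mem j),
      fun a => by
      induction a using Finsupp.induction_linear with
      | zero => simp only [map_zero]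
      | add a b ha hb => simp only [map_add, ha, hb]
      | single j a =>
        rw [Finsupp.mapRange.linearMap_apply, Finsupp.mapRange_single, crs_single, crs_single,
          cr_dd, h.cl j, map_zero, add_zero]⟩
  refine h1.qi (cos_id0.fs h.le) (cos_Am0 (· ×ˢ V) (fun _ h => h.prod hV)
    (fun _ _ h => prod_mono h Subset.rfl) (fun S => ?_)
    fun _ _ p hp => ⟨⟨hp.1.1, hp.2.1⟩, hp.1.2⟩) (bas_Bc (d := n)) (fun U hU => ?_) hU
  · rintro p ⟨⟨W, hW, h3⟩, h2⟩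
    exact mem_iUnion.2 ⟨⟨W, hW⟩, h3, h2⟩
  · obtain ⟨ρ, hρ, h2⟩ := hU.ex
    have h3 : itc n X ρ ≠ 0 := h2 ▸ one_ne_zero
    exact ((hU.hb rfl hρ h3).fs deg).qi (HB.congr_deg
      (((qi_cv hU hρ h3 hV).hb (h.shift _)).equiv (Equiv.prodUnique J Unit))
      (fun _ => add_comm _ _) fun q => (crs_single β _ ρ).symm) (fun k => h1.map k U)
      fun _ a _ => h1.comm a

/-- **Kuenneth** -/
theorem HB.prod (h : HB n U dg α) (h' : HB m V deg β) (hU : IsOpen U) (hV : IsOpen V) :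
    HB (n + m) (U ×ˢ V) (fun q : I × J => dg q.1 + deg q.2)
      fun q => cr n m X Y (α q.1) (β q.2) :=
  HB.congr_deg (((qi_crs h' hV hU).hb (h.fs deg)).equiv (Equiv.prodComm I J)) (fun _ => rfl)
    fun _ => crs_single _ _ _

/-- **Kuenneth** for a manifold `P` with an open embedding in `X × Y` -/
theorem HB.prod' {P : Type} [TopologicalSpace P] [ChartedSpace (Cm (n + m)) P]
    [IsManifold 𝓘(ℂ, Cm (n + m)) ω P] [T2Space P] {p : P → X} {q : P → Y}
    (hp : Smo (n + m) n p) (hq : Smo (n + m) m q) (hi : OE (n + m) fun z => (p z, q z))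
    (h : HB n U dg α) (h' : HB m V deg β) (hU : IsOpen U) (hV : IsOpen V)
    (hr : U ×ˢ V ⊆ range fun z => (p z, q z)) :
    HB (n + m) (p ⁻¹' U ∩ q ⁻¹' V) (fun r : I × J => dg r.1 + deg r.2)
      fun r => wd (P275MC.pb hp (α r.1)) (P275MC.pb hq (β r.2)) :=
  HB.congr_deg ((h.prod h' hU hV).pb hi hr) (fun _ => rfl) fun r => by
    rw [cr_apply, pb_wd, ← pb_comp, ← pb_comp]

end Vale.Agent.P275KU
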