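import Vale.Agent.P275KU.Cos
import Mathlib.LinearAlgebra.Finsupp.LinearCombination
import Mathlib.LinearAlgebra.Finsupp.Supported

/-!
# P275, quasi-isomorphisms of graded complexes, homogeneous bases of the cohomology
-/

set_option linter.unusedSectionVars false

open Set

noncomputable section

namespace Vale.Agent.P275KU

variable {T T' T'' : Type*} [AddCommGroup T] [Module ℂ T] [AddCommGroup T'] [Module ℂ T']
  [AddCommGroup T''] [Module ℂ T'']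

/-- a quasi-isomorphism of graded complexes -/
structure Qi (d : Module.End ℂ T) (G : ℤ → Submodule ℂ T) (d' : Module.End ℂ T')
    (G' : ℤ → Submodule ℂ T') (f : T →ₗ[ℂ] T') : Prop where
  map : ∀ k, ∀ a ∈ G k, f a ∈ G' k
  comm : ∀ k, ∀ a ∈ G k, d' (f a) = f (d a)
  inj : ∀ k, ∀ a ∈ G k, d a = 0 → ∀ y ∈ G' (k - 1), f a = d' y → ∃ x ∈ G (k - 1), d x = a
  surj : ∀ k, ∀ b ∈ G' k, d' b = 0 → ∃ a ∈ G k, d a = 0 ∧ ∃ y ∈ G' (k - 1), b = f a + d' y

variable {d : Module.End ℂ T} {G : ℤ → Submodule ℂ T} {d' : Module.End ℂ T'}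
  {G' : ℤ → Submodule ℂ T'} {d'' : Module.End ℂ T''} {G'' : ℤ → Submodule ℂ T''}
  {f : T →ₗ[ℂ] T'} {g : T' →ₗ[ℂ] T''}

theorem Qi.cl (h : Qi d G d' G' f) {k : ℤ} {a : T} (ha : a ∈ G k) (h0 : d a = 0) :
    d' (f a) = 0 := by rw [h.comm k a ha, h0, map_zero]

theorem Qi.comp (hg : Qi d' G' d'' G'' g) (hf : Qi d G d' G' f) : Qi d G d'' G'' (g ∘ₗ f) where
  map k a ha := hg.map k _ (hf.map k a ha)
  comm k a ha := (hg.comm k _ (hf.map k a ha)).trans (congrArg g (hf.comm k a ha))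
  inj k a ha h0 y hy e := by
    obtain ⟨x, hx, e1⟩ := hg.inj k _ (hf.map k a ha) (hf.cl ha h0) y hy e
    exact hf.inj k a ha h0 x hx e1.symm
  surj k c hc h0 := by
    obtain ⟨b, hb, b0, y, hy, rfl⟩ := hg.surj k c hc h0
    obtain ⟨a, ha, a0, x, hx, rfl⟩ := hf.surj k b hb b0
    exact ⟨a, ha, a0, g x + y, add_mem (hg.map _ _ hx) hy, by
      rw [map_add, map_add, hg.comm _ _ hx, add_assoc, LinearMap.comp_apply]⟩

/-- two out of three -/
theorem Qi.of_comp (h : Qi d G d'' G'' (g ∘ₗ f)) (hf : Qi d G d' G' f)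
    (h1 : ∀ k, ∀ a ∈ G' k, g a ∈ G'' k) (h2 : ∀ k, ∀ a ∈ G' k, d'' (g a) = g (d' a)) :
    Qi d' G' d'' G'' g where
  map := h1
  comm := h2
  inj k b hb h0 y hy e := by
    obtain ⟨a, ha, a0, x, hx, rfl⟩ := hf.surj k b hb h0
    obtain ⟨z, hz, rfl⟩ := h.inj k a ha a0 (y - g x) (sub_mem hy (h1 _ _ hx)) (by
      rw [map_sub, ← e, h2 _ _ hx, map_add, add_sub_cancel_right, LinearMap.comp_apply])
    exact ⟨f z + x, add_mem (hf.map _ _ hz) hx, by rw [map_add, hf.comm _ _ hz]⟩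
  surj k c hc h0 := by
    obtain ⟨a, ha, a0, y, hy, rfl⟩ := h.surj k c hc h0
    exact ⟨f a, hf.map _ _ ha, hf.cl ha a0, y, hy, rfl⟩

theorem Qi.shift (h : Qi d G d' G' f) (s : ℤ) :
    Qi d (fun k => G (k - s)) d' (fun k => G' (k - s)) f where
  map _ := h.map _
  comm _ := h.comm _
  inj k a ha h0 y hy e := by
    rw [sub_right_comm] at hy ⊢
    exact h.inj _ a ha h0 y hy e
  surj k b hb h0 := by
    rw [sub_right_comm]
    exact h.surj _ b hb h0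

theorem Qi.congr (h : Qi d G d' G' f) {f' : T →ₗ[ℂ] T'} (e : ∀ k, ∀ a ∈ G k, f a = f' a)
    (hd : ∀ k, ∀ a ∈ G k, d a ∈ G (k + 1)) : Qi d G d' G' f' where
  map k a ha := e k a ha ▸ h.map k a ha
  comm k a ha := by rw [← e k a ha, ← e _ _ (hd k a ha), h.comm k a ha]
  inj k a ha h0 y hy e1 := h.inj k a ha h0 y hy ((e k a ha).trans e1)
  surj k b hb h0 := by
    obtain ⟨a, ha, a0, y, hy, e1⟩ := h.surj k b hb h0
    exact ⟨a, ha, a0, y, hy, e k a ha ▸ e1⟩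

/-- isomorphisms of complexes -/
theorem Qi.of_inv (g : T' → T) (h1 : ∀ k, ∀ a ∈ G k, f a ∈ G' k)
    (h2 : ∀ k, ∀ a ∈ G k, d' (f a) = f (d a)) (h3 : ∀ k, ∀ b ∈ G' k, g b ∈ G k ∧ f (g b) = b)
    (h4 : ∀ k, ∀ a ∈ G k, f a = 0 → a = 0) (hd : ∀ k, ∀ a ∈ G k, d a ∈ G (k + 1)) :
    Qi d G d' G' f where
  map := h1
  comm := h2
  inj k a ha _ y hy e := by
    have h5 := hd _ _ (h3 _ y hy).1
    rw [sub_add_cancel] at h5
    exact ⟨g y, (h3 _ y hy).1, sub_eq_zero.1 (h4 k _ (sub_mem h5 ha) (by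
      rw [map_sub, ← h2 _ _ (h3 _ y hy).1, (h3 _ y hy).2, e, sub_self]))⟩
  surj k b hb h0 := ⟨g b, (h3 k b hb).1, h4 _ _ (hd _ _ (h3 k b hb).1) (by
    rw [← h2 _ _ (h3 k b hb).1, (h3 k b hb).2, h0]), 0, zero_mem _, by
      rw [map_zero, add_zero, (h3 k b hb).2]⟩

theorem Mor.qi {X : Type*} [TopologicalSpace X] {C : ℤ → Set X → Submodule ℂ T}
    {C' : ℤ → Set X → Submodule ℂ T'} {B : Set X → Prop} (hf : Mor d C d' C' f) (h : Cos d C)
    (h' : Cos d' C') (hB : Bas B) (h1 : ∀ V, B V → Qi d (C · V) d' (C' · V) f) {U : Set X}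
    (hU : IsOpen U) : Qi d (C · U) d' (C' · U) f :=
  have h2 := hf.qis h h' hB (fun V hV => ⟨(h1 V hV).inj, (h1 V hV).surj⟩) hU
  ⟨fun k => hf.map k U, fun _ a _ => hf.comm a, h2.inj, h2.surj⟩

variable {J J' : Type*} {deg : J → ℤ}

/-- finitely supported families, graded with shifts -/
def Fs (deg : J → ℤ) (G : ℤ → Submodule ℂ T) (k : ℤ) : Submodule ℂ (J →₀ T) :=
  ⨅ j, (G (k - deg j)).comap (Finsupp.lapply j)

theorem mem_Fs {k : ℤ} {a : J →₀ T} : a ∈ Fs deg G k ↔ ∀ j, a j ∈ G (k - deg j) := by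
  simp only [Fs, Submodule.mem_iInf, Submodule.mem_comap, Finsupp.lapply_apply]

theorem ex_fs (a : J →₀ T) {P : J → T' → Prop} (h : ∀ j, ∃ x, P j x) (h0 : ∀ j, a j = 0 → P j 0) :
    ∃ x : J →₀ T', ∀ j, P j (x j) := by
  classical
  choose x hx using h
  refine ⟨Finsupp.onFinset a.support (fun j => if a j = 0 then 0 else x j) fun j hj =>
    Finsupp.mem_support_iff.2 fun h1 => hj (if_pos h1), fun j => ?_⟩
  rw [Finsupp.onFinset_apply]
  split_ifs with h1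
  exacts [h0 j h1, hx j]

open Finsupp in
theorem Qi.fs (h : Qi d G d' G' f) (deg : J → ℤ) : Qi (mapRange.linearMap d) (Fs deg G)
    (mapRange.linearMap d') (Fs deg G') (mapRange.linearMap f) where
  map _ a ha := mem_Fs.2 fun j => h.map _ _ (mem_Fs.1 ha j)
  comm _ a ha := Finsupp.ext fun j => h.comm _ _ (mem_Fs.1 ha j)
  inj k a ha h0 y hy e := by
    obtain ⟨x, hx⟩ := ex_fs a (P := fun j x => x ∈ G (k - 1 - deg j) ∧ d x = a j) (fun j => by
      have h1 := mem_Fs.1 hy j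
      rw [sub_right_comm] at h1 ⊢
      exact h.inj _ _ (mem_Fs.1 ha j) (DFunLike.congr_fun h0 j) _ h1 (DFunLike.congr_fun e j))
      fun j hj => ⟨zero_mem _, by rw [map_zero, hj]⟩
    exact ⟨x, mem_Fs.2 fun j => (hx j).1, Finsupp.ext fun j => (hx j).2⟩
  surj k b hb h0 := by
    obtain ⟨x, hx⟩ := ex_fs b (P := fun j (x : T × T') => x.1 ∈ G (k - deg j) ∧ d x.1 = 0 ∧
      x.2 ∈ G' (k - 1 - deg j) ∧ b j = f x.1 + d' x.2) (fun j => by
        obtain ⟨a, h1, h2, y, h3, h4⟩ := h.surj _ _ (mem_Fs.1 hb j) (DFunLike.congr_fun h0 j)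
        exact ⟨(a, y), h1, h2, by rwa [sub_right_comm], h4⟩)
      fun j hj => ⟨zero_mem _, map_zero d, zero_mem _, by simp [hj]⟩
    exact ⟨x.mapRange Prod.fst rfl, mem_Fs.2 fun j => (hx j).1, Finsupp.ext fun j => (hx j).2.1,
      x.mapRange Prod.snd rfl, mem_Fs.2 fun j => (hx j).2.2.1, Finsupp.ext fun j => (hx j).2.2.2⟩

theorem Cos.fs {X : Type*} [TopologicalSpace X] {C : ℤ → Set X → Submodule ℂ T} (h : Cos d C)
    {N : ℤ} (hN : ∀ j, deg j ≤ N) :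
    Cos (Finsupp.mapRange.linearMap d) fun k U => Fs deg (C · U) k where
  dd u := Finsupp.ext fun j => h.dd (u j)
  dC k U u hu := mem_Fs.2 fun j => by
    rw [add_sub_right_comm]
    exact h.dC _ _ _ (mem_Fs.1 hu j)
  mono k U V e u hu := mem_Fs.2 fun j => h.mono _ _ _ e (mem_Fs.1 hu j)
  un k S hS u hu := by
    classical
    rw [← Finsupp.sum_single u]
    refine Submodule.sum_mem _ fun j _ => Submodule.mem_comap.1 (((h.un _ S hS).trans
      (iSup₂_le fun V hV a ha => ?_) : _ ≤ Submodule.comap (Finsupp.lsingle j) _) (mem_Fs.1 hu j))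
    refine Submodule.mem_comap.2 (Submodule.mem_iSup_of_mem V (Submodule.mem_iSup_of_mem hV
      (mem_Fs.2 fun i => ?_)))
    rw [Finsupp.lsingle_apply, Finsupp.single_apply]
    split_ifs with h1
    exacts [h1 ▸ ha, zero_mem _]
  int k U V u hu := mem_Fs.2 fun j => h.int _ _ _ ⟨mem_Fs.1 hu.1 j, mem_Fs.1 hu.2 j⟩
  bd := by
    obtain ⟨M, hM⟩ := h.bd
    refine ⟨M + N, fun k U hk => eq_bot_iff.2 fun u hu => Finsupp.ext fun j => ?_⟩
    have h1 := mem_Fs.1 hu j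
    rwa [hM _ _ (by have := hN j; omega)] at h1

/-- `ℂ` in degree zero -/
def Pt (k : ℤ) : Submodule ℂ ℂ := if k = 0 then ⊤ else ⊥

theorem mem_Pt {k : ℤ} {c : ℂ} : c ∈ Pt k ↔ k ≠ 0 → c = 0 := by
  unfold Pt
  split_ifs with h <;> simp [h]

theorem mem_FP {k : ℤ} {c : J →₀ ℂ} : c ∈ Fs deg Pt k ↔ ∀ j, deg j ≠ k → c j = 0 := by
  simp only [mem_Fs, mem_Pt, ne_eq, sub_eq_zero, eq_comm (a := k)]

/-- the classes of the `β j`, of degree `deg j`, are a basis of the cohomology -/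
def Hb (d : Module.End ℂ T) (G : ℤ → Submodule ℂ T) (deg : J → ℤ) (β : J → T) : Prop :=
  Qi 0 (Fs deg Pt) d G (Finsupp.linearCombination ℂ β)

variable {β : J → T}

theorem single_FP (j : J) (c : ℂ) : Finsupp.single j c ∈ Fs deg Pt (deg j) :=
  mem_FP.2 fun _ hi => Finsupp.single_eq_of_ne fun h => hi (congrArg deg h)

theorem Hb.mem (h : Hb d G deg β) (j : J) : β j ∈ G (deg j) := by
  simpa using h.map _ _ (single_FP j 1)

theorem Hb.cl (h : Hb d G deg β) (j : J) : d (β j) = 0 := by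
  simpa using h.comm _ _ (single_FP j 1)

theorem lc_mem (h : ∀ j, β j ∈ G (deg j)) {k : ℤ} {c : J →₀ ℂ} (hc : c ∈ Fs deg Pt k) :
    Finsupp.linearCombination ℂ β c ∈ G k := by
  rw [Finsupp.linearCombination_apply]
  refine Submodule.sum_mem _ fun j _ => ?_
  by_cases h1 : deg j = k
  · exact Submodule.smul_mem _ _ (h1 ▸ h j)
  · simp only [mem_FP.1 hc j h1, zero_smul, zero_mem]

theorem lc_cl (h : ∀ j, d (β j) = 0) (c : J →₀ ℂ) : d (Finsupp.linearCombination ℂ β c) = 0 := by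
  rw [Finsupp.apply_linearCombination, show d ∘ β = 0 from funext h]
  simp

theorem Hb.of (h1 : ∀ j, β j ∈ G (deg j)) (h2 : ∀ j, d (β j) = 0)
    (h3 : ∀ k, ∀ c ∈ Fs deg Pt k, ∀ y ∈ G (k - 1), Finsupp.linearCombination ℂ β c = d y → c = 0)
    (h4 : ∀ k, ∀ b ∈ G k, d b = 0 → ∃ c ∈ Fs deg Pt k, ∃ y ∈ G (k - 1),
      b = Finsupp.linearCombination ℂ β c + d y) : Hb d G deg β where
  map _ _ := lc_mem h1
  comm _ c _ := by rw [lc_cl h2, LinearMap.zero_apply, map_zero]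
  inj k c hc _ y hy e := ⟨0, zero_mem _, (h3 k c hc y hy e).symm⟩
  surj k b hb h0 :=
    let ⟨c, hc, h⟩ := h4 k b hb h0
    ⟨c, hc, rfl, h⟩

theorem Hb.ind (h : Hb d G deg β) {k : ℤ} {c : J →₀ ℂ} (hc : c ∈ Fs deg Pt k) {y : T}
    (hy : y ∈ G (k - 1)) (e : Finsupp.linearCombination ℂ β c = d y) : c = 0 :=
  let ⟨_, _, h⟩ := h.inj k c hc rfl y hy e
  h.symm

theorem Hb.span (h : Hb d G deg β) {k : ℤ} {b : T} (hb : b ∈ G k) (h0 : d b = 0) :
    ∃ c ∈ Fs deg Pt k, ∃ y ∈ G (k - 1), b = Finsupp.linearCombination ℂ β c + d y :=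
  let ⟨c, hc, _, h⟩ := h.surj k b hb h0
  ⟨c, hc, h⟩

theorem Hb.ne (h : Hb d G deg β) (j : J) : β j ≠ 0 := fun h0 => by
  simpa using h.ind (single_FP j 1) (zero_mem _) (by simp [h0])

theorem Qi.hb (hf : Qi d G d' G' f) (h : Hb d G deg β) : Hb d' G' deg fun j => f (β j) :=
  (hf.comp h).congr (fun _ c _ => Finsupp.apply_linearCombination ℂ f β c) fun _ _ _ => zero_mem _

theorem Hb.qi (h : Hb d G deg β) (h' : Hb d' G' deg fun j => f (β j))
    (h1 : ∀ k, ∀ a ∈ G k, f a ∈ G' k) (h2 : ∀ k, ∀ a ∈ G k, d' (f a) = f (d a)) :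
    Qi d G d' G' f :=
  Qi.of_comp (Qi.congr h' (fun _ c _ => (Finsupp.apply_linearCombination ℂ f β c).symm)
    fun _ _ _ => zero_mem _) h h1 h2

theorem Hb.shift (h : Hb d G deg β) (s : ℤ) :
    Hb d (fun k => G (k - s)) (fun j => deg j + s) β := by
  have h1 : (fun k => Fs deg Pt (k - s)) = Fs (fun j => deg j + s) Pt :=
    funext fun k => Submodule.ext fun c => by simp only [mem_FP, ne_eq, eq_sub_iff_add_eq]
  rw [Hb, ← h1]
  exact Qi.shift h s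

theorem Hb.equiv (h : Hb d G deg β) (e : J' ≃ J) : Hb d G (fun j => deg (e j)) fun j => β (e j) := by
  have h1 : Qi 0 (Fs (fun j => deg (e j)) Pt) 0 (Fs deg Pt) (Finsupp.domLCongr e).toLinearMap :=
    Qi.of_inv (Finsupp.domLCongr (R := ℂ) e).symm (fun k c hc => mem_FP.2 fun j hj =>
      mem_FP.1 hc (e.symm j) (by rwa [e.apply_symm_apply])) (fun _ _ _ => (map_zero _).symm)
      (fun k c hc => ⟨mem_FP.2 fun j hj => mem_FP.1 hc _ hj, LinearEquiv.apply_symm_apply _ _⟩)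
      (fun _ _ _ => (LinearEquiv.map_eq_zero_iff _).1) fun _ _ _ => zero_mem _
  refine (Qi.comp h h1).congr (fun _ c _ => LinearMap.congr_fun ?_ c) fun _ _ _ => zero_mem _
  ext j
  simp

/-- a basis of the cohomology of a sum of shifted copies -/
theorem Hb.fs {I : Type*} {dg : I → ℤ} {α : I → T} (h : Hb d G dg α) (deg : J → ℤ) :
    Hb (Finsupp.mapRange.linearMap d) (Fs deg G) (fun q : J × I => dg q.2 + deg q.1)
      fun q => Finsupp.single q.1 (α q.2) := by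
  have h1 : Qi 0 (Fs (fun q : J × I => dg q.2 + deg q.1) Pt) (Finsupp.mapRange.linearMap 0)
      (Fs deg (Fs dg Pt)) (Finsupp.curryLinearEquiv ℂ).toLinearMap :=
    Qi.of_inv (Finsupp.curryLinearEquiv (M := ℂ) ℂ).symm (fun k c hc => mem_Fs.2 fun j =>
      mem_FP.2 fun i hi => mem_FP.1 hc (j, i) fun h2 => hi (eq_sub_iff_add_eq.2 h2))
      (fun _ _ _ => Finsupp.ext fun _ => rfl)
      (fun k c hc => ⟨mem_FP.2 fun q hq =>
        mem_FP.1 (mem_Fs.1 hc q.1) q.2 fun h2 => hq (eq_sub_iff_add_eq.1 h2),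
        LinearEquiv.apply_symm_apply _ _⟩)
      (fun _ _ _ => (LinearEquiv.map_eq_zero_iff _).1) fun _ _ _ => zero_mem _
  refine (Qi.comp (Qi.fs h deg) h1).congr (fun _ c _ => LinearMap.congr_fun ?_ c)
    fun _ _ _ => zero_mem _
  ext ⟨j, i⟩ : 2
  simp

end Vale.Agent.P275KU
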