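import Vale.Agent.P275KU.Kun
import Vale.Agent.P275KU.Fn
import Vale.Agent.P275AR.One

/-!
# P275, the cohomology with compact supports of a torus times an affine space
-/

set_option linter.unusedSectionVars false

open scoped Manifold ContDiff Topology Matrix
open Filter MeasureTheory Set
open Vale.Agent.P272.K Vale.Agent.P272.K.Prod Vale.Agent.P299.IX Vale.Agent.P299.IX.Fock
  Vale.Agent.P281Z.Hg Vale.Agent.P281Z.Hg.G1H Vale.Agent.P281Z.Hg.G2H Vale.Agent.P281Z.Hg.Pb1H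
  Vale.Agent.P275MC Vale.Agent.P275PC Vale.Agent.P275AR

noncomputable section

namespace Vale.Agent.P275KU

section punct

variable {d : ℕ} {M : Type} [TopologicalSpace M] [ChartedSpace (Cm d) M]
  [IsManifold 𝓘(ℂ, Cm d) ω M] [T2Space M] {U : Set M} {p : M} {u : SF d M}

theorem Ac_Nb (h : u ∈ Ac d U) (hp : p ∉ U) : u ∈ Nb p :=
  let ⟨_, h1, h2, h3⟩ := h
  mem_of_superset (h1.isClosed.isOpen_compl.mem_nhds fun h => hp (h2 h)) h3

theorem Ac_diff (h : u ∈ Ac d U) (hp : u ∈ Nb p) : u ∈ Ac d (U \ {p}) :=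
  let ⟨K, h1, h2, h3⟩ := h
  ⟨K \ {x | u ∈ Nb x}, h1.diff (isOpen_Nb u), fun _ hx => ⟨h2 hx.1, fun e => hx.2 (e ▸ hp)⟩,
    fun x hx => by_contra fun h4 => hx ⟨by_contra fun h5 => h4 (h3 x h5), fun h5 => h4 (Nb_ZP h5)⟩⟩

theorem HB.span' {J : Type*} {deg : J → ℤ} {β : J → SF d M} (h : HB d U deg β)
    {P : Submodule ℂ (SF d M)} (h1 : ∀ j, β j ∈ P) (h2 : ∀ w ∈ Ac d U, dd d M w ∈ P)
    (hu : u ∈ Ac d U) (h0 : dd d M u = 0) : u ∈ P := by
  rw [← pj_sum u]
  refine Submodule.sum_mem _ fun k _ => ?_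
  obtain ⟨c, -, y, hy, e⟩ := h.span (pj_Am (k : ℕ) hu) (by rw [← pj_dd, h0, map_zero])
  rw [e, Finsupp.linearCombination_apply]
  exact add_mem (Submodule.sum_mem _ fun j _ => Submodule.smul_mem _ _ (h1 j)) (h2 y hy.1)

/-- a punctured convex chart -/
theorem Bc.punct (hU : Bc d U) (hd : 0 < d) {χ : M → ℝ} (hχ : SmoothFn (n := d) χ)
    (h1 : mu hχ (one d M) ∈ Ac d U) (h2 : ∀ᶠ y in 𝓝 p, χ y = 1) {w : SF d M}
    (hw : w ∈ Am d (d + d : ℕ) (U \ {p})) (h0 : itc d M w ≠ 0) :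
    HB d (U \ {p}) (fun j : Bool => cond j (d + d : ℕ) 1)
      fun j => cond j w (dd d M (mu hχ (one d M))) := by
  have hb := hU.hb rfl (Am_mono _ sdiff_subset hw) h0
  have h3 := mu_Nb_one hχ h2
  have h4 : mu hχ (one d M) ∈ Am d 0 U := ⟨h1, mu_Dg _ one_Dg⟩
  have h5 : dd d M (mu hχ (one d M)) ∈ Am d 1 (U \ {p}) := ⟨Ac_diff (dd_Ac h1) (by
    simpa only [map_sub, dd_one, sub_zero] using dd_Nb (h3 (one d M))), dd_Dg h4.2⟩
  have h6 : ∀ c : Bool →₀ ℂ, Finsupp.linearCombination ℂ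
      (fun j => cond j w (dd d M (mu hχ (one d M)))) c =
      c true • w + c false • dd d M (mu hχ (one d M)) := fun c => by
    rw [Finsupp.linearCombination_apply, Finsupp.sum_fintype _ _ (by simp), Fintype.sum_bool]
    rfl
  refine Hb.of (by rintro (_ | _) <;> assumption) (by
    rintro (_ | _)
    exacts [dd_dd _, dd_top hw.2 rfl]) (fun k c hc y hy e => ?_) fun k b hb' b0 => ?_
  · rw [h6] at e
    have h7 : c true = 0 := by
      have h8 := congrArg (itc d M) e
      rwa [map_add, map_smul, map_smul, itc_dd (Ac_mono (subset_univ _) h1),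
        itc_dd (Ac_mono (subset_univ _) hy.1), smul_zero, add_zero,
        smul_eq_zero_iff_left h0] at h8
    have h8 : c false = 0 := by_contra fun h9 => by
      obtain rfl : 1 = k := by_contra fun h10 => h9 (mem_FP.1 hc false h10)
      rw [h7, zero_smul, zero_add] at e
      obtain ⟨a, ha, z, hz, e1⟩ := hb.span (sub_mem (Submodule.smul_mem _ (c false) h4)
        (Am_mono _ sdiff_subset hy)) (by rw [map_sub, map_smul, e, sub_self])
      rw [show z = 0 from (Submodule.mem_bot ℂ).1 (Dg_neg (M := M) (d := d) (k := 0 - 1)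
        (by omega) ▸ hz.2), Finsupp.linearCombination_unique, mem_FP.1 ha default (by omega), zero_smul, map_zero,
        add_zero, sub_eq_zero] at e1
      refine h9 (one_Nb (d := d) (x := p) ?_)
      have h10 := sub_mem (e1 ▸ Ac_Nb hy.1 fun h => h.2 rfl)
        (Submodule.smul_mem _ (c false) (h3 (one d M)))
      rwa [← smul_sub, sub_sub_cancel] at h10
    ext (_ | _) <;> assumption
  · obtain ⟨c, hc, y, hy, e⟩ := hb.span (Am_mono _ sdiff_subset hb') b0
    rw [Finsupp.linearCombination_unique] at e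
    obtain ⟨s, a, h7⟩ := poincare (x := p) (u := y) (by
      rw [← sub_eq_iff_eq_add'.2 e]
      exact sub_mem (Ac_Nb hb'.1 fun h => h.2 rfl)
        (Submodule.smul_mem _ _ (Ac_Nb hw.1 fun h => h.2 rfl)))
    have h8 := op_Nb (T := pj d M (k - 1)) (opr_vl _) h7
    rw [map_add, map_sub, pj_eq hy.2, map_smul, ← sub_add_cancel (k - 1) 1, pj_dd,
      sub_add_cancel] at h8
    obtain ⟨a', h9, h10⟩ : ∃ a' : ℂ, (1 ≠ k → a' = 0) ∧
        a • pj d M (k - 1) (one d M) = a' • one d M := by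
      by_cases h : 1 = k
      · exact ⟨a, fun h' => (h' h).elim, by rw [← h, sub_self, pj_eq one_Dg]⟩
      · exact ⟨0, fun _ => rfl, by rw [pj_ne one_Dg (by omega), smul_zero, zero_smul]⟩
    rw [h10] at h8
    set s' := pj d M (k - 1 - 1) s
    have h11 : mu hχ s' ∈ Am d (k - 1 - 1) U :=
      ⟨by rw [← one_wd s', ← wd_mu]; exact wd_Ac_left h1 _, mu_Dg _ (pj_mem _ _)⟩
    refine ⟨Finsupp.equivFunOnFinite.symm fun j => cond j (c default) a', mem_FP.2 ?_,
      y - dd d M (mu hχ s') - a' • mu hχ (one d M), ⟨Ac_diff (sub_mem (sub_mem hy.1 (dd_Ac h11.1))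
        (Submodule.smul_mem _ _ h1)) ?_, sub_mem (sub_mem hy.2 ?_) ?_⟩, ?_⟩
    · rintro (_ | _)
      exacts [h9, mem_FP.1 hc default]
    · convert neg_mem (add_mem (add_mem h8 (dd_Nb (h3 s')))
        (Submodule.smul_mem _ a' (h3 (one d M)))) using 1
      rw [map_sub, smul_sub]
      abel
    · simpa only [sub_add_cancel] using dd_Dg h11.2
    · by_cases h : 1 = k
      · exact Submodule.smul_mem _ _ (by rw [← h, sub_self]; exact h4.2)
      · rw [h9 h, zero_smul]
        exact zero_mem _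
    · rw [h6, (dd d M).map_sub, (dd d M).map_sub, dd_dd, (dd d M).map_smul,
        Finsupp.coe_equivFunOnFinite_symm, cond_true, cond_false, sub_zero, add_assoc,
        add_sub_cancel]
      exact e

end punct

variable {d n m : ℕ}

theorem bc_univ : Bc d (univ : Set (Cm d)) :=
  ⟨_, (at_refl 0).1, univ, isOpen_univ, convex_univ, Subset.rfl, (inter_self _).symm, univ_nonempty⟩

theorem smo_self {f : Cm n → Cm m} (h : ContDiff ℝ ∞ f) : Smo n m f :=
  ⟨h.continuous, fun _ _ _ he he' => by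
    rw [at_self he, at_self he']
    exact h.contDiffAt⟩

/-- the coordinates -/
def co (i : Fin d) : SF d (Cm d) := fn (smC_self (contDiff_apply ℝ ℂ i))

/-- torus times affine space -/
def TS (S : Set (Fin d)) : Set (Cm d) := {z | ∀ i ∈ S, z i ≠ 0}

theorem TS_open (S : Set (Fin d)) : IsOpen (TS S) := by
  rw [TS, ofPred_forall]
  exact isOpen_iInter_of_finite fun i => by
    rw [ofPred_forall]
    exact isOpen_iInter_of_finite fun _ => isOpen_ne_fun (continuous_apply i) continuous_const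

/-- `P` is stable under the products with the `dlog z i` -/
def St (S : Set (Fin d)) (P : Submodule ℂ (SF d (Cm d))) : Prop :=
  ∀ i ∈ S, ∀ v ∈ P, ∀ w, wd (co i) w = wd (dd d _ (co i)) v → w ∈ P

variable (d) in
/-- the cohomology of `TS S` is generated by a class of degree `r` -/
def Tor (S : Set (Fin d)) (r : ℤ) : Prop := ∃ u ∈ Am d r (TS S), dd d _ u = 0 ∧
  ∃ (J : Type) (deg : J → ℤ) (β : J → SF d (Cm d)), HB d (TS S) deg β ∧
    ∀ P, u ∈ P → St S P → ∀ j, β j ∈ P

theorem tor_aff {S : Set (Fin d)} (hS : ∀ i, i ∉ S) : Tor d S (d + d : ℕ) := by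
  obtain ⟨u, h1, h2⟩ := (bc_univ (d := d)).ex
  have h : TS S = univ := eq_univ_of_forall fun _ i hi => (hS i hi).elim
  rw [Tor, h]
  exact ⟨u, h1, dd_top h1.2 rfl, Unit, _, _, bc_univ.hb rfl h1 (h2 ▸ one_ne_zero),
    fun _ h _ _ => h⟩

attribute [local instance] prodCS isManifold_prod in
theorem Tor.prod {S : Set (Fin n)} {S' : Set (Fin m)} {T : Set (Fin (n + m))} {r r' : ℤ}
    (h : Tor n S r) (h' : Tor m S' r') (e : ∀ i, Fin.castAdd m i ∈ T ↔ i ∈ S)
    (e' : ∀ i, Fin.natAdd n i ∈ T ↔ i ∈ S') : Tor (n + m) T (r + r') := by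
  obtain ⟨u, h1, h2, I, dg, α, h3, h4⟩ := h
  obtain ⟨v, k1, k2, J, deg, β, k3, k4⟩ := h'
  have hp : Smo (n + m) n fstP := smo_self contDiff_fstP
  have hq : Smo (n + m) m sndP := smo_self contDiff_sndP
  have hi : OE (n + m) fun z : Cm (n + m) => (fstP z, sndP z) :=
    OE.of_homeo glueH.symm (smo_pair hp hq) ⟨continuous_glue, fun E c z hE hc => by
      obtain ⟨e, e', rfl, a1, a2⟩ := at_dec hE
      rw [at_self hc, at_self a1, at_self a2]
      exact contDiff_glue contDiff_fstP.contDiffAt contDiff_sndP.contDiffAt⟩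
  have hr : TS S ×ˢ TS S' ⊆ range fun z : Cm (n + m) => (fstP z, sndP z) := fun z _ =>
    glueH.symm.surjective z
  have hT : fstP ⁻¹' TS S ∩ sndP ⁻¹' TS S' = TS T := Set.ext fun z =>
    ⟨fun hz => Fin.addCases (fun i hi => hz.1 i ((e i).1 hi)) fun i hi => hz.2 i ((e' i).1 hi),
      fun hz => ⟨fun i hi => hz _ ((e i).2 hi), fun i hi => hz _ ((e' i).2 hi)⟩⟩
  have hc : ∀ a b, pb hi.smo (cr n m _ _ a b) = wd (pb hp a) (pb hq b) := fun a b => by
    rw [cr_apply, pb_wd, ← pb_comp, ← pb_comp]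
  have c1 : ∀ i, pb hp (co i) = co (Fin.castAdd m i) := fun i => pb_fn _ _
  have c2 : ∀ i, pb hq (co i) = co (Fin.natAdd n i) := fun i => pb_fn _ _
  refine ⟨wd (pb hp u) (pb hq v), ?_, ?_, I × J, _, _,
    hT ▸ h3.prod' hp hq hi k3 (TS_open S) (TS_open S') hr, fun P a1 a2 j => ?_⟩
  · rw [← hc, ← hT]
    exact (qi_pb hi hr).map _ _ (cr_Am h1 k1)
  · rw [← hc, ← pb_dd, cr_dd, h2, k2, map_zero, map_zero, LinearMap.zero_apply, add_zero, map_zero]
  · refine k4 (P.comap (wd (pb hp (α j.1)) ∘ₗ pb hq)) ?_ (fun i hi a ha w hw => ?_) j.2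
    · rw [Submodule.mem_comap, LinearMap.comp_apply, ← hc]
      refine h4 (P.comap (pb hi.smo ∘ₗ (cr n m _ _).flip v)) ((hc u v).symm ▸ a1 :)
        (fun i hi' a ha w hw => a2 _ ((e i).2 hi') _ ha _ ?_) j.1
      simp only [LinearMap.comp_apply, LinearMap.flip_apply, hc]
      rw [← c1, ← pb_dd, ← wd_wd, ← wd_wd, ← pb_wd, ← pb_wd, hw]
    · refine a2 _ ((e' i).2 hi) _ (P.smul_mem ((dg j.1 * 1).negOnePow : ℂ) ha) _ ?_
      simp only [LinearMap.comp_apply]
      rw [co, ← wd_fn, ← co, ← c2, ← pb_wd, hw, pb_wd, ← pb_dd, map_smul,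
        wd_swap (pb_Dg hp (h3.mem j.1).2) (pb_Dg hq (show dd m _ (co i) ∈ _ from dd_fn_Dg _))]

open Real in
theorem tor_one : Tor 1 univ 1 := by
  let t : Cm 1 → ℝ := fun z => 2 - Complex.normSq (z 0)
  have t0 : ∀ z, (t z : ℂ) = 2 - z 0 * star (z 0) := fun z => by
    simp only [t, Complex.ofReal_sub, Complex.star_def, Complex.mul_conj, Complex.ofReal_ofNat]
  have c0 : ContDiff ℝ ∞ fun z : Cm 1 => z 0 := contDiff_apply ℝ ℂ 0
  have c1 : ContDiff ℝ ∞ fun z : Cm 1 => star (z 0) := Complex.conjCLE.contDiff.comp c0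
  have t1 : ContDiff ℝ ∞ t := by
    have h := Complex.reCLM.contDiff.comp ((contDiff_const (c := 2)).sub (c0.mul c1))
    simp only [← t0] at h
    exact h
  have sm : ∀ {f : Cm 1 → ℝ}, ContDiff ℝ ∞ f → SmoothFn (n := 1) f := fun h _ _ he => by
    rw [at_self he]
    exact h.contDiffAt
  have s0 : ContDiff ℝ ∞ smoothTransition := smoothTransition.contDiff
  have s1 : ContDiff ℝ ∞ (deriv smoothTransition) := (contDiff_infty_iff_deriv.1 s0).2
  have hχ := sm (s0.comp t1)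
  have hψ := SmC.of_real (sm (s1.comp t1))
  have hK : IsCompact (t ⁻¹' Ici 0) := Metric.isCompact_of_isClosed_isBounded
    (isClosed_Ici.preimage t1.continuous) ((Metric.isBounded_closedBall (x := 0) (r := 2)).subset
      fun z hz => by
        rw [mem_closedBall_zero_iff, pi_norm_le_iff_of_nonneg zero_le_two, Fin.forall_fin_one]
        have h : 0 ≤ 2 - Complex.normSq (z 0) := hz
        rw [Complex.normSq_eq_norm_sq] at h
        nlinarith [norm_nonneg (z 0)])
  have s2 : ∀ x ∉ Icc (0 : ℝ) 1, deriv smoothTransition x = 0 := fun x hx => by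
    rcases not_and_or.1 hx with h | h
    · rw [EventuallyEq.deriv_eq (f := fun _ => 0) ((eventually_lt_nhds (not_le.1 h)).mono
        fun y hy => smoothTransition.zero_of_nonpos hy.le), deriv_const]
    · rw [EventuallyEq.deriv_eq (f := fun _ => 1) ((eventually_gt_nhds (not_le.1 h)).mono
        fun y hy => smoothTransition.one_of_one_le hy.le), deriv_const]
  have hL : IsCompact (t ⁻¹' Icc 0 1) := hK.of_isClosed_subset
    (isClosed_Icc.preimage t1.continuous) fun _ h => h.1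
  have hT : TS univ = (univ \ {0} : Set (Cm 1)) := Set.ext fun z =>
    ⟨fun h => ⟨trivial, fun e => h 0 trivial (congrFun e 0)⟩,
      fun h i _ e => h.2 (funext fun j => Subsingleton.elim i j ▸ e)⟩
  let w := wd (fn hψ) (wd (dd 1 _ (fn (smC_self c0))) (dd 1 _ (fn (smC_self c1))))
  have hw : w ∈ Am 1 (1 + 1 : ℕ) (univ \ {0}) :=
    ⟨wd_Ac_left (fn_Ac hψ hL (fun z hz => (mem_sdiff _).2 ⟨trivial, fun e => by
      have h := hz.2
      rw [show z = 0 from e] at h
      norm_num [t] at h⟩) fun z hz => Complex.ofReal_eq_zero.2 (s2 _ hz)) _,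
    fn_wd_Dg _ (wd_Dg (dd_fn_Dg _) (dd_fn_Dg _))⟩
  have h0 : itc 1 _ w ≠ 0 := by
    have e1 : ∀ z, vl w (OpenPartialHomeomorph.refl _) z Finset.univ =
        (deriv smoothTransition (t z) : ℝ) * (eps (hl 0) *ᵥ (eps (ah 0) *ᵥ ev ∅)) Finset.univ :=
      fun z => by
      have a1 := wd_fn_vl hψ (wd (dd 1 _ (fn (smC_self c0))) (dd 1 _ (fn (smC_self c1))))
        (at_refl z)
      rw [wd_vl (dd 1 _ _) _ (at_refl z), dd_fn_vl _ (at_refl z), dd_fn_vl _ (at_refl z),
        F1aH.wg_epsV, f1a.wg_ev, mul_one] at a1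
      rw [← col_eq (ψ := fun y : Cm 1 => y) (l := hl 0) (fun _ => rfl) z,
        ← col_eq (ψ := fun y : Cm 1 => y) (l := ah 0) (fun _ => rfl) z]
      exact congrFun a1 _
    obtain ⟨x, hx⟩ : ∃ x, deriv smoothTransition x ≠ 0 := by_contra fun h => by
      push Not at h
      simpa using is_const_of_deriv_eq_zero (s0.differentiable (by simp)) h 0 1
    rw [itc_chart (at_refl 0).1 (Ac_mono (subset_univ _) hw.1)]
    simp only [e1]
    rw [integral_mul_const, integral_complex_ofReal]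
    refine mul_ne_zero (Complex.ofReal_ne_zero.2 (ne_of_gt ?_)) ?_
    · refine (s1.comp t1).continuous.integral_pos_of_hasCompactSupport_nonneg_nonzero
        (x := fun _ => (√(2 - x) : ℝ)) (HasCompactSupport.intro hL fun z hz => s2 _ hz)
        (fun z => smoothTransition.monotone.deriv_nonneg) ?_
      have h : x ≤ 1 := by_contra fun h => hx (s2 x fun h1 => h h1.2)
      simp only [t, Complex.normSq_ofReal]
      rwa [mul_self_sqrt (by linarith), sub_sub_cancel]
    · rw [eps_ev_min (by simp), eps_ev_min (by decide), show (Finset.univ : FI (1 + 1)) =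
        insert (hl 0) (insert (ah 0) ∅) by decide]
      simp [ev]
  have hb := bc_univ.punct one_pos hχ (p := 0) (mu_mem_Ac _ (HasCompactSupport.intro hK fun z hz =>
    smoothTransition.zero_of_nonpos (not_le.1 hz).le) (subset_univ _) _)
    ((t1.continuous.continuousAt.eventually (eventually_gt_nhds (show 1 < t 0 by norm_num [t]))).mono
      fun y hy => smoothTransition.one_of_one_le hy.le) hw h0
  rw [Tor, hT]
  refine ⟨_, hb.mem false, dd_dd _, Bool, _, _, hb, fun P h1 h2 => ?_⟩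
  rintro (_ | _)
  · exact h1
  · refine h2 0 trivial _ (neg_mem h1) w ?_
    have a1 : dd 1 _ (fn (smC_self c0)) ∈ Dg 1 (Cm 1) 1 := dd_fn_Dg _
    rw [cond_false, ← fn_real', dd_fn_real (sm t1) _ hψ fun x =>
      (s0.differentiable (by simp) _).hasDerivAt, fn_congr (SmC.of_real (sm t1))
      ((SmC.const 2).sub ((smC_self c0).mul (smC_self c1))) t0,
      fn_sub (SmC.const 2) ((smC_self c0).mul (smC_self c1)), map_sub, dd_fn_const,
      zero_sub, (wd (fn hψ)).map_neg, neg_neg, dd_fn_mul (smC_self c0) (smC_self c1),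
      wd_fn hψ (dd 1 _ _), co, (wd (dd 1 _ _)).map_add, wd_fn _ (dd 1 _ _), wd_fn _ (dd 1 _ _),
      wd_self' a1, map_zero, add_zero, wd_fn hψ]

theorem tor_univ (a : ℕ) : Tor a univ a := by
  induction a with
  | zero => exact tor_aff fun i => i.elim0
  | succ a ih => exact ih.prod tor_one (fun _ => Iff.rfl) fun _ => Iff.rfl

variable {Z : Type} [TopologicalSpace Z] [ChartedSpace (Cm d) Z] [IsManifold 𝓘(ℂ, Cm d) ω Z]
  [T2Space Z]

theorem Tor.gen {S : Set (Fin d)} {r : ℤ} (h : Tor d S r) {x : Z → Cm d} (hx : OE d x)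
    (hr : range x = TS S) {θ : S → SF d Z} (hθ : ∀ i : S, IsDl (smC_coord hx.smo i) (θ i)) :
    ∃ u ∈ Am d r (univ : Set Z), dd d Z u = 0 ∧ ∀ P : Submodule ℂ (SF d Z), u ∈ P →
      (∀ w ∈ Ac d univ, dd d Z w ∈ P) → (∀ i, ∀ v ∈ P, wd (θ i) v ∈ P) →
        ∀ z ∈ Ac d univ, dd d Z z = 0 → z ∈ P := by
  obtain ⟨u, h1, h2, J, deg, β, h3, h4⟩ := h
  have h5 : x ⁻¹' TS S = univ := by rw [← hr, preimage_range]
  refine ⟨pb hx.smo u, h5 ▸ (qi_pb hx hr.ge).map _ _ h1, by rw [← pb_dd, h2, map_zero],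
    fun P a1 a2 a3 z hz z0 => (h5 ▸ h3.pb hx hr.ge :).span'
      (h4 (P.comap (pb hx.smo)) a1 fun i hi v hv w hw => ?_) a2 hz z0⟩
  have h6 := congrArg (pb hx.smo) hw
  rw [pb_wd, pb_wd, pb_dd, co, pb_fn, ← hθ ⟨i, hi⟩, wd_wd] at h6
  rw [Submodule.mem_comap, fn_cancel _ (fun y => (hr ▸ mem_range_self y : x y ∈ TS S) i hi) h6]
  exact a3 _ _ hv

/-- **the cohomology with compact supports of `(ℂ*)^a × ℂ^b`** -/
theorem tor {a b : ℕ} {Z : Type} [TopologicalSpace Z] [ChartedSpace (Cm (a + b)) Z]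
    [IsManifold 𝓘(ℂ, Cm (a + b)) ω Z] [T2Space Z] {x : Z → Cm (a + b)} (hx : OE (a + b) x)
    (hr : range x = {z | ∀ i, z (Fin.castAdd b i) ≠ 0}) {θ : Fin a → SF (a + b) Z}
    (hθ : ∀ i, IsDl (smC_coord hx.smo (Fin.castAdd b i)) (θ i)) :
    ∃ u ∈ Am (a + b) (a + 2 * b) (univ : Set Z), dd _ Z u = 0 ∧
      ∀ P : Submodule ℂ (SF (a + b) Z), u ∈ P → (∀ w ∈ Ac (a + b) univ, dd _ Z w ∈ P) →
        (∀ i, ∀ v ∈ P, wd (θ i) v ∈ P) → ∀ z ∈ Ac (a + b) univ, dd _ Z z = 0 → z ∈ P := by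
  have h1 : Tor (a + b) (range (Fin.castAdd b)) (a + (b + b : ℕ)) :=
    (tor_univ a).prod (tor_aff (S := ∅) fun _ h => h) (fun i => iff_of_true ⟨i, rfl⟩ trivial)
      fun i => iff_of_false (fun ⟨j, h⟩ => by
        have := congrArg Fin.val h
        simp only [Fin.val_castAdd, Fin.val_natAdd] at this
        omega) fun h => h
  obtain ⟨u, h2, h3, h4⟩ := h1.gen hx (θ := fun i => θ i.2.choose)
    (hr.trans (Set.ext fun z => (forall_mem_range (p := fun i => z i ≠ 0)).symm))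
    fun i => (hθ _).congr _ fun y => congrArg (x y) i.2.choose_spec
  exact ⟨u, by convert h2 using 2; push_cast; ring, h3, fun P a1 a2 a3 => h4 P a1 a2 fun _ => a3 _⟩

end Vale.Agent.P275KU
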